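import Vale.Agent.P092.H538.Mean
import Vale.Agent.P092.H432.Frame

/-!
P092 (helper538), block [S6] of helper432's plan for all amplifications: the row model version of
the construction of an invariant mean.
-/

set_option linter.all false

open scoped InnerProductSpace
open Filter Topology ContinuousLinearMap

namespace Vale.Agent.P092.H538

open Vale.Agent.P092.H160 Vale.Agent.P092.H553 Vale.Agent.P092.H200 Vale.Agent.P092.H432

section row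

variable {Γ Λ ι : Type} [Group Γ] [Group Λ] [Fintype ι] {t : ℝ}
  {R : Λ → (Ell2 (Γ × ι) →L[ℂ] Ell2 (Γ × ι))}
  {U : Ultrafilter ℕ} {z : ℕ → Λ} {F F' D : ℕ → Γ → ℝ} {C C' : ℝ}

theorem norm_mp_le {F : Γ → ℝ} (hF : ∀ g, |F g| ≤ C) (ξ : Ell2 (Γ × ι)) :
    ‖mp ι F ξ‖ ≤ C * ‖ξ‖ :=
  norm_mo_le (F := fun x : Γ × ι => F x.1) (fun x => hF x.1) ξ

theorem inner_mp_left {F : Γ → ℝ} (hF : ∀ g, |F g| ≤ C) (ξ η : Ell2 (Γ × ι)) :
    ⟪mp ι F ξ, η⟫_ℂ = ⟪ξ, mp ι F η⟫_ℂ :=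
  inner_mo_left (F := fun x : Γ × ι => F x.1) (fun x => hF x.1) ξ η

theorem inner_mp {F : Γ → ℝ} (hF : ∀ g, |F g| ≤ C) (ξ : Ell2 (Γ × ι)) :
    ⟪ξ, mp ι F ξ⟫_ℂ = ((∑' x : Γ × ι, F x.1 * ‖ξ x‖ ^ 2 : ℝ) : ℂ) :=
  inner_mo (F := fun x : Γ × ι => F x.1) (fun x => hF x.1) ξ

theorem summable_mp {F : Γ → ℝ} (hF : ∀ g, |F g| ≤ C) (ξ : Ell2 (Γ × ι)) :
    Summable fun x : Γ × ι => F x.1 * ‖ξ x‖ ^ 2 :=
  summable_mo (F := fun x : Γ × ι => F x.1) (fun x => hF x.1) ξ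

section basic

variable (hR : ARep t R)

include hR

theorem rr_inv (v : Λ) : R v⁻¹ * R v = R 1 := by rw [← hR.mul, inv_mul_cancel]

theorem rr_inv' (v : Λ) : R v * R v⁻¹ = R 1 := by rw [← hR.mul, mul_inv_cancel]

theorem r_one (v : Λ) : R v * R 1 = R v := by rw [← hR.mul, mul_one]

theorem one_r (v : Λ) : R 1 * R v = R v := by rw [← hR.mul, one_mul]

theorem inner_r_left (v : Λ) (ξ η : Ell2 (Γ × ι)) : ⟪R v ξ, η⟫_ℂ = ⟪ξ, R v⁻¹ η⟫_ℂ := by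
  rw [← hR.adj, adjoint_inner_right]

theorem inner_r_right (v : Λ) (ξ η : Ell2 (Γ × ι)) : ⟪ξ, R v η⟫_ℂ = ⟪R v⁻¹ ξ, η⟫_ℂ := by
  rw [← hR.adj, adjoint_inner_left]

theorem norm_r_eq (v : Λ) (ξ : Ell2 (Γ × ι)) : ‖R v ξ‖ = ‖R 1 ξ‖ := by
  have h1 : ⟪R v ξ, R v ξ⟫_ℂ = ⟪R 1 ξ, R 1 ξ⟫_ℂ := by
    rw [inner_r_left hR, inner_r_left hR, ← mul_ap, ← mul_ap, rr_inv hR, inv_one, one_r hR]
  rw [inner_self_eq_norm_sq_to_K, inner_self_eq_norm_sq_to_K] at h1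
  have h2 : ‖R v ξ‖ ^ 2 = ‖R 1 ξ‖ ^ 2 := by exact_mod_cast h1
  exact (pow_left_inj₀ (norm_nonneg _) (norm_nonneg _) two_ne_zero).mp h2

theorem norm_one_le (ξ : Ell2 (Γ × ι)) : ‖R 1 ξ‖ ≤ ‖ξ‖ := by
  have h1 : ⟪R 1 ξ, R 1 ξ⟫_ℂ = ⟪ξ, R 1 ξ⟫_ℂ := by
    rw [inner_r_left hR, ← mul_ap, inv_one, one_r hR]
  have h2 : ‖R 1 ξ‖ ^ 2 ≤ ‖ξ‖ * ‖R 1 ξ‖ := by
    have h3 := norm_inner_le_norm (𝕜 := ℂ) ξ (R 1 ξ)
    rw [← h1, inner_self_eq_norm_sq_to_K, norm_pow] at h3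
    simpa using h3
  by_contra hcon
  push Not at hcon
  nlinarith [norm_nonneg ξ, norm_nonneg (R 1 ξ)]

theorem norm_r_le (v : Λ) (ξ : Ell2 (Γ × ι)) : ‖R v ξ‖ ≤ ‖ξ‖ := by
  rw [norm_r_eq hR]; exact norm_one_le hR ξ

theorem pa_bdd' (hF : ∀ k g, |F k g| ≤ C) (k : ℕ) :
    ‖adjoint (R (z k)) * mp ι (F k) * R (z k)‖ ≤ C := by
  have hC : 0 ≤ C := (abs_nonneg _).trans (hF 0 1)
  refine ContinuousLinearMap.opNorm_le_bound _ hC fun ξ => ?_
  rw [mul_ap, mul_ap, hR.adj]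
  refine (norm_r_le hR _ _).trans ((norm_mp_le (hF k) _).trans ?_)
  have := norm_r_le hR (z k) ξ
  gcongr

theorem pa_spec' (hF : ∀ k g, |F k g| ≤ C) (ξ η : Ell2 (Γ × ι)) :
    Tendsto (fun k => ⟪R (z k) ξ, mp ι (F k) (R (z k) η)⟫_ℂ) U
      (𝓝 ⟪ξ, PiA U R z F η⟫_ℂ) := by
  refine (wl_spec U (pa_bdd' hR hF) ξ η).congr fun k => ?_
  rw [mul_ap, mul_ap, adjoint_inner_right]

theorem pa_sym' (hF : ∀ k g, |F k g| ≤ C) (ξ η : Ell2 (Γ × ι)) :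
    ⟪PiA U R z F ξ, η⟫_ℂ = ⟪ξ, PiA U R z F η⟫_ℂ := by
  refine tendsto_nhds_unique ?_ (pa_spec' hR hF ξ η)
  have h1 := (Complex.continuous_conj.tendsto _).comp (pa_spec' (z := z) (U := U) hR hF η ξ)
  rw [inner_conj_symm] at h1
  refine h1.congr fun k => ?_
  rw [Function.comp_apply, inner_conj_symm, inner_mp_left (hF k)]

theorem pa_nonneg' (hF : ∀ k g, |F k g| ≤ C) (h0 : ∀ k g, 0 ≤ F k g) : 0 ≤ PiA U R z F := by
  refine H108.nonneg_of_inner ?_ fun ζ => ?_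
  · rw [IsSelfAdjoint, star_eq_adjoint, eq_comm, ContinuousLinearMap.eq_adjoint_iff]
    exact pa_sym' hR hF
  · refine ge_of_tendsto ((Complex.continuous_re.tendsto _).comp (pa_spec' hR hF ζ ζ))
      (Eventually.of_forall fun k => ?_)
    rw [Function.comp_apply, inner_mp (hF k), Complex.ofReal_re]
    exact tsum_nonneg fun g => mul_nonneg (h0 k g.1) (by positivity)

theorem pa_one (hF : ∀ k g, |F k g| ≤ C) : PiA U R z F * R 1 = PiA U R z F := by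
  refine op_ext_inner fun ξ η => ?_
  rw [mul_ap]
  refine tendsto_nhds_unique (pa_spec' hR hF ξ (R 1 η)) ?_
  refine (pa_spec' hR hF ξ η).congr fun k => ?_
  rw [← mul_ap (R (z k)) (R 1), r_one hR]

theorem pa_lx' (hF : ∀ k g, |F k g| ≤ C) (s : Γ) (ξ : Ell2 (Γ × ι)) :
    lx s (PiA U R z F ξ) = PiA U R z (fun k g => F k (s⁻¹ * g)) (lx s ξ) := by
  refine ext_inner_left ℂ fun η => ?_
  refine tendsto_nhds_unique ?_
    (pa_spec' hR (F := fun k g => F k (s⁻¹ * g)) (fun k g => hF k _) η (lx s ξ))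
  rw [inner_lx_right]
  refine (pa_spec' hR hF (lx s⁻¹ η) ξ).congr fun k => ?_
  rw [(hR.ra _).app, (hR.ra _).app, ← lx_mp (hF k), inner_lx_right]

end basic

/-- the quadratic form of `PiA` -/
noncomputable def tA (U : Ultrafilter ℕ) (R : Λ → (Ell2 (Γ × ι) →L[ℂ] Ell2 (Γ × ι))) (z : ℕ → Λ)
    (F : ℕ → Γ → ℝ) (ξ : Ell2 (Γ × ι)) : ℝ := (⟪ξ, PiA U R z F ξ⟫_ℂ).re

section tA

variable (hR : ARep t R)

include hR

theorem small_of_usmA (hD : Usm U D) : SmallA U R z D := by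
  intro ξ
  rw [Metric.tendsto_nhds]
  intro ε hε
  have h1 := hD (ε / (2 * (‖ξ‖ + 1))) (by positivity)
  filter_upwards [h1] with k hk
  rw [dist_zero_right, norm_norm]
  refine (norm_mp_le hk _).trans_lt ?_
  have h2 := norm_r_le hR (z k) ξ
  have h3 : ε / (2 * (‖ξ‖ + 1)) * ‖R (z k) ξ‖ ≤ ε / (2 * (‖ξ‖ + 1)) * ‖ξ‖ := by gcongr
  refine h3.trans_lt ?_
  rw [div_mul_eq_mul_div, div_lt_iff₀ (by positivity)]
  nlinarith [norm_nonneg ξ]

theorem tA_spec (hF : ∀ k g, |F k g| ≤ C) (ξ : Ell2 (Γ × ι)) :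
    Tendsto (fun k => ∑' x : Γ × ι, F k x.1 * ‖R (z k) ξ x‖ ^ 2) U (𝓝 (tA U R z F ξ)) := by
  refine ((Complex.continuous_re.tendsto _).comp (pa_spec' hR hF ξ ξ)).congr fun k => ?_
  rw [Function.comp_apply, inner_mp (hF k), Complex.ofReal_re]

theorem tA_mono (hF : ∀ k g, |F k g| ≤ C) (hF' : ∀ k g, |F' k g| ≤ C')
    (h : ∀ δ : ℝ, 0 < δ → ∀ᶠ k in U, ∀ g, F k g ≤ F' k g + δ) (ξ : Ell2 (Γ × ι)) :
    tA U R z F ξ ≤ tA U R z F' ξ := by
  have key : ∀ δ : ℝ, 0 < δ → tA U R z F ξ ≤ tA U R z F' ξ + δ * ‖ξ‖ ^ 2 := by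
    intro δ hδ
    refine le_of_tendsto_of_tendsto (tA_spec hR hF ξ)
      ((tA_spec (z := z) (U := U) hR hF' ξ).add_const (δ * ‖ξ‖ ^ 2)) ?_
    filter_upwards [h δ hδ] with k hk
    have h1 : ∑' x, δ * ‖R (z k) ξ x‖ ^ 2 ≤ δ * ‖ξ‖ ^ 2 := by
      rw [tsum_mul_left, ← norm_sq]
      have := norm_r_le hR (z k) ξ
      gcongr
    have hs := summable_mp (hF k) (R (z k) ξ)
    have hs' := summable_mp (hF' k) (R (z k) ξ)
    have hs2 := (summable_sq (R (z k) ξ)).mul_left δ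
    refine le_trans ?_ (add_le_add le_rfl h1)
    rw [← hs'.tsum_add hs2]
    refine hs.tsum_le_tsum (fun g => ?_) (hs'.add hs2)
    rw [← add_mul]
    exact mul_le_mul_of_nonneg_right (hk g.1) (by positivity)
  refine le_of_forall_pos_le_add fun ε hε => ?_
  have h2 := key (ε / (‖ξ‖ ^ 2 + 1)) (by positivity)
  refine h2.trans ?_
  gcongr
  rw [div_mul_eq_mul_div, div_le_iff₀ (by positivity)]
  nlinarith [sq_nonneg ‖ξ‖]

theorem tA_const (c : ℝ) (ξ : Ell2 (Γ × ι)) :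
    tA U R z (fun _ _ => c) ξ = c * ‖R 1 ξ‖ ^ 2 := by
  refine tendsto_nhds_unique (tA_spec (C := |c|) hR (fun k g => le_rfl) ξ) ?_
  refine tendsto_const_nhds.congr fun k => ?_
  rw [tsum_mul_left, ← norm_sq, norm_r_eq hR (z k)]

theorem tA_le (hF : ∀ k g, |F k g| ≤ C) {c : ℝ} (hc : 0 ≤ c)
    (h : ∀ δ : ℝ, 0 < δ → ∀ᶠ k in U, ∀ g, F k g ≤ c + δ) (ξ : Ell2 (Γ × ι)) :
    tA U R z F ξ ≤ c * ‖ξ‖ ^ 2 := by
  have h1 := tA_mono (z := z) hR hF (F' := fun _ _ => c) (C' := |c|) (fun k g => le_rfl) h ξ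
  rw [tA_const hR] at h1
  refine h1.trans ?_
  have := norm_one_le hR ξ
  gcongr

theorem tA_sum {κ : Type*} (s : Finset κ) (a : κ → ℝ) {G : κ → ℕ → Γ → ℝ} {E : κ → ℝ}
    (hG : ∀ j k g, |G j k g| ≤ E j) (ξ : Ell2 (Γ × ι)) :
    tA U R z (fun k g => ∑ j ∈ s, a j * G j k g) ξ = ∑ j ∈ s, a j * tA U R z (G j) ξ := by
  have hb : ∀ k g, |∑ j ∈ s, a j * G j k g| ≤ ∑ j ∈ s, |a j| * E j := by
    intro k g
    refine (Finset.abs_sum_le_sum_abs _ _).trans (Finset.sum_le_sum fun j _ => ?_)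
    rw [abs_mul]
    have := hG j k g
    gcongr
  refine tendsto_nhds_unique (tA_spec hR hb ξ) ?_
  refine (tendsto_finsetSum s fun j _ => (tA_spec (z := z) (U := U) hR (hG j) ξ).const_mul
    (a j)).congr fun k => ?_
  have h1 : ∀ j, a j * ∑' x : Γ × ι, G j k x.1 * ‖R (z k) ξ x‖ ^ 2 =
      ∑' x : Γ × ι, a j * (G j k x.1 * ‖R (z k) ξ x‖ ^ 2) := fun j => tsum_mul_left.symm
  simp only [h1]
  rw [← Summable.tsum_finsetSum (fun j _ =>
    (summable_mp (hG j k) (R (z k) ξ)).mul_left _)]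
  refine tsum_congr fun g => ?_
  rw [Finset.sum_mul]
  exact Finset.sum_congr rfl fun j _ => by ring

theorem tA_lx (hF : ∀ k g, |F k g| ≤ C) (b : Γ) (ξ : Ell2 (Γ × ι)) :
    tA U R z F (lx b⁻¹ ξ) = tA U R z (fun k g => F k (b⁻¹ * g)) ξ := by
  have h1 := pa_lx' (U := U) (z := z) hR hF b (lx b⁻¹ ξ)
  have h2 : lx b (lx b⁻¹ ξ) = ξ := by
    rw [← mul_ap, ← lx_mul, mul_inv_cancel, lx_one]; rfl
  rw [h2] at h1
  rw [tA, tA, ← h1, inner_lx_right]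

end tA

/-- Additive covariant families of positive operators. -/
structure EFam (R : Λ → (Ell2 (Γ × ι) →L[ℂ] Ell2 (Γ × ι)))
    (E : Set Λ → (Ell2 (Γ × ι) →L[ℂ] Ell2 (Γ × ι))) : Prop where
  nonneg : ∀ A, 0 ≤ E A
  add : ∀ A A', Disjoint A A' → E (A ∪ A') = E A + E A'
  univ : E Set.univ = R 1
  cov : ∀ v A, R v * E A * R v⁻¹ = E {w | w * v ∈ A}

section TE

variable (E : Set Λ → (Ell2 (Γ × ι) →L[ℂ] Ell2 (Γ × ι))) (B : Finset Γ)
  (c : Finset Γ → (Ell2 (Γ × ι) →L[ℂ] Ell2 (Γ × ι))) {A A' : Set Λ}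

open Classical in
/-- `∑_b ∑_{J ∋ b} λ_b c_J* E_A c_J λ_b*`. -/
noncomputable def TE (A : Set Λ) : Ell2 (Γ × ι) →L[ℂ] Ell2 (Γ × ι) :=
  ∑ b ∈ B, ∑ J ∈ B.powerset.filter (fun J => b ∈ J),
    star (c J * lx b⁻¹) * E A * (c J * lx b⁻¹)

/-- the form of `c_J* E_A c_J` at `λ_b* ξ` -/
noncomputable def qE (A : Set Λ) (ξ : Ell2 (Γ × ι)) (b : Γ) (J : Finset Γ) : ℝ :=
  (⟪c J (lx b⁻¹ ξ), E A (c J (lx b⁻¹ ξ))⟫_ℂ).re

theorem TE_re (ξ : Ell2 (Γ × ι)) : (⟪ξ, TE E B c A ξ⟫_ℂ).re =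
    ∑ b ∈ B, ∑ J ∈ B.powerset, ib b J * qE E c A ξ b J := by
  classical
  rw [TE, sum_apply, inner_sum, Complex.re_sum]
  refine Finset.sum_congr rfl fun b _ => ?_
  rw [sum_apply, inner_sum, Complex.re_sum, Finset.sum_filter]
  refine Finset.sum_congr rfl fun J _ => ?_
  rw [ib]
  split_ifs
  · rw [one_mul, qE, mul_ap, mul_ap, star_eq_adjoint, adjoint_inner_right, mul_ap]
  · rw [zero_mul]

theorem qE_lx (ξ : Ell2 (Γ × ι)) (s b : Γ) (J : Finset Γ) :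
    qE E c A (lx s⁻¹ ξ) b J = qE E c A ξ (s * b) J := by
  rw [qE, qE, mul_inv_rev, lx_mul]
  rfl

variable {E} (hE : EFam R E)

include hE

theorem TE_nonneg : 0 ≤ TE E B c A := by
  refine Finset.sum_nonneg fun b _ => Finset.sum_nonneg fun J _ => ?_
  exact star_left_conjugate_nonneg (hE.nonneg A) _

theorem TE_union (h : Disjoint A A') : TE E B c (A ∪ A') = TE E B c A + TE E B c A' := by
  rw [TE, TE, TE, ← Finset.sum_add_distrib]
  refine Finset.sum_congr rfl fun b _ => ?_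
  rw [← Finset.sum_add_distrib]
  refine Finset.sum_congr rfl fun J _ => ?_
  rw [hE.add A A' h, mul_add, add_mul]

theorem qE_nonneg (ξ : Ell2 (Γ × ι)) (b : Γ) (J : Finset Γ) : 0 ≤ qE E c A ξ b J :=
  H108.inner_nonneg_of_nonneg (hE.nonneg A) _

theorem EA_le (ξ : Ell2 (Γ × ι)) : (⟪ξ, E A ξ⟫_ℂ).re ≤ (⟪ξ, R 1 ξ⟫_ℂ).re := by
  have h1 := hE.add A Aᶜ disjoint_compl_right
  rw [Set.union_compl_self, hE.univ] at h1
  rw [h1, add_apply, inner_add_right, Complex.add_re]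
  linarith [H108.inner_nonneg_of_nonneg (hE.nonneg Aᶜ) ξ]

variable (hR : ARep t R)

include hR

theorem one_re (ξ : Ell2 (Γ × ι)) : (⟪ξ, R 1 ξ⟫_ℂ).re = ‖R 1 ξ‖ ^ 2 := by
  have h1 : ⟪R 1 ξ, R 1 ξ⟫_ℂ = ⟪ξ, R 1 ξ⟫_ℂ := by
    rw [inner_r_left hR, ← mul_ap, inv_one, one_r hR]
  rw [← h1, inner_self_eq_norm_sq_to_K]
  norm_cast

theorem qE_le (ξ : Ell2 (Γ × ι)) (b : Γ) (J : Finset Γ) :
    qE E c A ξ b J ≤ (⟪lx b⁻¹ ξ, (star (c J) * c J) (lx b⁻¹ ξ)⟫_ℂ).re := by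
  refine (EA_le hE _).trans ?_
  rw [one_re hE hR, mul_ap, star_eq_adjoint, adjoint_inner_right, inner_self_eq_norm_sq_to_K]
  have h1 := norm_one_le hR (c J (lx b⁻¹ ξ))
  have h2 : ‖R 1 (c J (lx b⁻¹ ξ))‖ ^ 2 ≤ ‖c J (lx b⁻¹ ξ)‖ ^ 2 := by gcongr
  refine h2.trans (le_of_eq ?_)
  norm_cast

theorem qE_univ (ξ : Ell2 (Γ × ι)) (b : Γ) (J : Finset Γ) (hc : R 1 * c J = c J) :
    qE E c Set.univ ξ b J = (⟪lx b⁻¹ ξ, (star (c J) * c J) (lx b⁻¹ ξ)⟫_ℂ).re := by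
  rw [qE, hE.univ, ← mul_ap (R 1), hc, mul_ap, star_eq_adjoint, adjoint_inner_right]

/-- covariance of `TE` -/
theorem TE_cov (v : Λ) (hc : ∀ J ∈ B.powerset, R v * c J = c J * R v)
    (hc' : ∀ J ∈ B.powerset, R v⁻¹ * c J = c J * R v⁻¹) :
    TE E B c {w | w * v ∈ A} = R v * TE E B c A * R v⁻¹ := by
  classical
  rw [TE, TE, Finset.mul_sum, Finset.sum_mul]
  refine Finset.sum_congr rfl fun b _ => ?_
  rw [Finset.mul_sum, Finset.sum_mul]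
  refine Finset.sum_congr rfl fun J hJ => ?_
  have hJ' := (Finset.mem_filter.mp hJ).1
  have hl : ∀ u g, R u * lx g = lx g * R u := fun u g => hR.ra u g
  have h2 : (c J * lx b⁻¹) * R v⁻¹ = R v⁻¹ * (c J * lx b⁻¹) := by
    rw [mul_assoc, ← hl, ← mul_assoc, ← hc' J hJ', mul_assoc]
  have h3 : star (c J * lx b⁻¹) * R v = R v * star (c J * lx b⁻¹) := by
    have := congrArg star h2
    rw [star_mul, star_mul (R v⁻¹), star_eq_adjoint (R v⁻¹), hR.adj, inv_inv] at this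
    exact this.symm
  rw [← hE.cov v A]
  calc star (c J * lx b⁻¹) * (R v * E A * R v⁻¹) * (c J * lx b⁻¹)
      = (star (c J * lx b⁻¹) * R v) * E A * (R v⁻¹ * (c J * lx b⁻¹)) := by
        simp only [mul_assoc]
    _ = (R v * star (c J * lx b⁻¹)) * E A * ((c J * lx b⁻¹) * R v⁻¹) := by rw [h3, h2]
    _ = _ := by simp only [mul_assoc]

end TE

section step

variable [DecidableEq Γ] {χ : ℕ → Γ → ℝ} {S B : Finset Γ} {ε : ℝ} {μ : Γ → Γ → ℝ}
  {E : Set Λ → (Ell2 (Γ × ι) →L[ℂ] Ell2 (Γ × ι))}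

/-- the one step lemma, row model -/
theorem stepA (hR : ARep t R) (hE : EFam R E) (hχ : CutOff U χ) (hμ : Amen U χ S ε B μ)
    (hε : 0 ≤ ε) (K : Subgroup Λ)
    (hpc : ∀ v ∈ K, ∀ F : ℕ → Γ → ℝ, (∀ k g, |F k g| ≤ 1) →
      (∀ t : Γ, SmallA U R z (fun k g => F k (g * t) - F k g)) →
      PiA U R z F * R v = R v * PiA U R z F) :
    ∃ T : Set Λ → (Ell2 (Γ × ι) →L[ℂ] Ell2 (Γ × ι)), (∀ A, 0 ≤ T A) ∧
      (∀ A A', Disjoint A A' → T (A ∪ A') = T A + T A') ∧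
      (∀ ξ, (⟪ξ, T Set.univ ξ⟫_ℂ).re ≤ ‖ξ‖ ^ 2) ∧
      (∀ ξ, (1 - ε) * tA U R z χ ξ ≤ (⟪ξ, T Set.univ ξ⟫_ℂ).re) ∧
      (∀ v ∈ K, ∀ A, T {w | w * v ∈ A} = R v * T A * R v⁻¹) ∧
      (∀ s ∈ S, ∀ A ξ, |(⟪lx s ξ, T A (lx s ξ)⟫_ℂ).re - (⟪ξ, T A ξ⟫_ℂ).re| ≤ ε * ‖ξ‖ ^ 2) := by
  have hsq : ∀ J, ∃ c : Ell2 (Γ × ι) →L[ℂ] Ell2 (Γ × ι), star c * c = PiA U R z (phi χ B μ J) ∧
      ∀ y : Ell2 (Γ × ι) →L[ℂ] Ell2 (Γ × ι),
        y * PiA U R z (phi χ B μ J) = PiA U R z (phi χ B μ J) * y →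
        y * c = c * y := fun J =>
    H108.exists_sqrt (pa_nonneg' hR (phi_abs hχ J) (phi_nonneg hχ J))
  choose c hc1 hc2 using hsq
  have hp : ∀ ξ b J, (⟪lx b⁻¹ ξ, (star (c J) * c J) (lx b⁻¹ ξ)⟫_ℂ).re =
      tA U R z (fun k g => phi χ B μ J k (b⁻¹ * g)) ξ := by
    intro ξ b J
    rw [hc1, ← tA_lx hR (phi_abs hχ J)]
    rfl
  have hK' : ∀ v ∈ K, v⁻¹ ∈ K := fun v hv => K.inv_mem hv
  have hcomm : ∀ v ∈ K, ∀ J, R v * c J = c J * R v := by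
    intro v hv J
    refine hc2 J _ ?_
    exact (hpc v hv _ (phi_abs hχ J)
      (fun t => small_of_usmA hR (phi_right hχ hμ J t))).symm
  have hone : ∀ J, R 1 * c J = c J := by
    intro J
    rw [hcomm 1 K.one_mem J]
    have h1 : ∀ ξ, c J (R 1 ξ - ξ) = 0 := by
      intro ξ
      have h2 : ⟪c J (R 1 ξ - ξ), c J (R 1 ξ - ξ)⟫_ℂ = 0 := by
        rw [← adjoint_inner_right, ← star_eq_adjoint, ← mul_ap, hc1, map_sub, ← mul_ap,
          pa_one hR (phi_abs hχ J), sub_self, inner_zero_right]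
      exact inner_self_eq_zero.mp h2
    ext1 ξ
    have h3 := h1 ξ
    rw [map_sub, sub_eq_zero] at h3
    exact h3
  have huniv : ∀ ξ, (⟪ξ, TE E B c Set.univ ξ⟫_ℂ).re =
      tA U R z (fun k g => ∑ b ∈ B, 1 * (μ b g * χ k (b⁻¹ * g))) ξ := by
    intro ξ
    rw [tA_sum hR B (fun _ => 1) (G := fun b k g => μ b g * χ k (b⁻¹ * g)) (E := fun _ => 1)
      (fun b k g => ?_), TE_re]
    · refine Finset.sum_congr rfl fun b _ => ?_
      rw [one_mul]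
      simp only [qE_univ c hE hR _ _ _ (hone _), hp]
      rw [← tA_sum hR B.powerset (fun J => ib b J)
        (G := fun J k g => phi χ B μ J k (b⁻¹ * g)) (E := fun _ => 1)
        (fun J k g => phi_abs hχ J k _)]
      congr 1
      funext k g
      rw [sum_ib_phi hμ, mul_inv_cancel_left]
    · rw [abs_mul, abs_of_nonneg (hμ.nonneg _ _), abs_of_nonneg (hχ.nonneg _ _)]
      exact mul_le_one₀ (hμ.le_one _ _) (hχ.nonneg _ _) (hχ.le_one _ _)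
  have hbd : ∀ k g, |∑ b ∈ B, 1 * (μ b g * χ k (b⁻¹ * g))| ≤ 1 := by
    intro k g
    have h0 : 0 ≤ ∑ b ∈ B, 1 * (μ b g * χ k (b⁻¹ * g)) :=
      Finset.sum_nonneg fun b _ => by
        rw [one_mul]; exact mul_nonneg (hμ.nonneg _ _) (hχ.nonneg _ _)
    rw [abs_of_nonneg h0]
    refine (Finset.sum_le_sum fun b _ => ?_).trans (hμ.sum_le g)
    rw [one_mul]
    exact mul_le_of_le_one_right (hμ.nonneg _ _) (hχ.le_one _ _)
  refine ⟨TE E B c, fun A => TE_nonneg _ _ hE, fun A A' h => TE_union _ _ hE h, ?_, ?_,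
    ?_, ?_⟩
  · intro ξ
    rw [huniv]
    refine (tA_le hR hbd (c := 1) zero_le_one
      (fun δ hδ => Eventually.of_forall fun k g => ?_) ξ).trans (by rw [one_mul])
    exact (le_abs_self _).trans ((hbd k g).trans (by linarith))
  · intro ξ
    rw [huniv]
    have h1 : (1 - ε) * tA U R z χ ξ = tA U R z (fun k g => ∑ j ∈ ({0} : Finset ℕ),
        (1 - ε) * χ k g) ξ := by
      rw [tA_sum hR {0} (fun _ => 1 - ε) (G := fun _ k g => χ k g) (E := fun _ => 1)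
        (fun _ k g => hχ.abs_le k g)]
      simp
    rw [h1]
    refine tA_mono hR (C := |1 - ε|) (fun k g => ?_) hbd (fun δ hδ => ?_) ξ
    · rw [Finset.sum_singleton, abs_mul]
      exact mul_le_of_le_one_right (abs_nonneg _) (hχ.abs_le k g)
    · have h2 : ∀ᶠ k in U, ∀ b ∈ B, ∀ g, |χ k (b⁻¹ * g) - χ k g| ≤ δ := by
        rw [Filter.eventually_all_finset]
        intro b _
        exact hχ.left b⁻¹ _ hδ
      filter_upwards [h2] with k hk g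
      rw [Finset.sum_singleton]
      have h3 : ∑ b ∈ B, μ b g * (χ k g - δ) ≤ ∑ b ∈ B, 1 * (μ b g * χ k (b⁻¹ * g)) := by
        refine Finset.sum_le_sum fun b hb => ?_
        rw [one_mul]
        refine mul_le_mul_of_nonneg_left ?_ (hμ.nonneg _ _)
        have := (abs_le.mp (hk b hb g)).1
        linarith
      rw [← Finset.sum_mul] at h3
      have h4 := hμ.sum_ge g
      have h5 := hμ.sum_le g
      have h6 := hχ.nonneg k g
      nlinarith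
  · intro v hv A
    exact TE_cov B c hE hR v (fun J _ => hcomm v hv J) (fun J _ => hcomm _ (hK' v hv) J)
  · intro s hs A ξ
    obtain ⟨DD, hDD⟩ : ∃ DD, DD = B ∪ B.image (fun b => s⁻¹ * b) := ⟨_, rfl⟩
    have e1 : (⟪ξ, TE E B c A ξ⟫_ℂ).re =
        ∑ b ∈ DD, ∑ J ∈ B.powerset, ib b J * qE E c A ξ b J := by
      rw [TE_re]
      refine Finset.sum_subset (by rw [hDD]; exact Finset.subset_union_left) fun b _ hb => ?_
      exact Finset.sum_eq_zero fun J hJ => by rw [ib_zero hJ hb, zero_mul]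
    have e2 : (⟪lx s ξ, TE E B c A (lx s ξ)⟫_ℂ).re =
        ∑ b ∈ DD, ∑ J ∈ B.powerset, ib (s * b) J * qE E c A ξ b J := by
      rw [TE_re]
      have e3 : ∑ b ∈ B.image (fun b => s⁻¹ * b), ∑ J ∈ B.powerset,
          ib (s * b) J * qE E c A ξ b J =
          ∑ b ∈ B, ∑ J ∈ B.powerset, ib b J * qE E c A (lx s ξ) b J := by
        rw [Finset.sum_image (fun x _ y _ h => mul_left_cancel h)]
        refine Finset.sum_congr rfl fun b _ => Finset.sum_congr rfl fun J _ => ?_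
        have := qE_lx E c (A := A) ξ s⁻¹ b J
        rw [inv_inv] at this
        rw [this, mul_inv_cancel_left]
      rw [← e3]
      refine Finset.sum_subset (by rw [hDD]; exact Finset.subset_union_right) fun b _ hb => ?_
      refine Finset.sum_eq_zero fun J hJ => ?_
      rw [ib_zero hJ (fun h => hb (Finset.mem_image.mpr ⟨s * b, h, inv_mul_cancel_left s b⟩)),
        zero_mul]
    have e4 : |(⟪lx s ξ, TE E B c A (lx s ξ)⟫_ℂ).re -
        (⟪ξ, TE E B c A ξ⟫_ℂ).re| ≤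
        ∑ b ∈ DD, ∑ J ∈ B.powerset, |ib (s * b) J - ib b J| *
          tA U R z (fun k g => phi χ B μ J k (b⁻¹ * g)) ξ := by
      rw [e1, e2, ← Finset.sum_sub_distrib]
      refine (Finset.abs_sum_le_sum_abs _ _).trans (Finset.sum_le_sum fun b _ => ?_)
      rw [← Finset.sum_sub_distrib]
      refine (Finset.abs_sum_le_sum_abs _ _).trans (Finset.sum_le_sum fun J _ => ?_)
      rw [← sub_mul, abs_mul, abs_of_nonneg (qE_nonneg c hE _ _ _)]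
      refine mul_le_mul_of_nonneg_left ?_ (abs_nonneg _)
      rw [← hp]
      exact qE_le c hE hR _ _ _
    have e5 : ∑ b ∈ DD, ∑ J ∈ B.powerset, |ib (s * b) J - ib b J| *
          tA U R z (fun k g => phi χ B μ J k (b⁻¹ * g)) ξ =
        tA U R z (fun k g => ∑ b ∈ DD, 1 * (|μ (s * b) (s * g) - μ b g| * χ k (b⁻¹ * g))) ξ := by
      rw [tA_sum hR DD (fun _ => 1)
        (G := fun b k g => |μ (s * b) (s * g) - μ b g| * χ k (b⁻¹ * g)) (E := fun _ => 1)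
        (fun b k g => ?_)]
      · refine Finset.sum_congr rfl fun b _ => ?_
        rw [one_mul, ← tA_sum hR B.powerset (fun J => |ib (s * b) J - ib b J|)
          (G := fun J k g => phi χ B μ J k (b⁻¹ * g)) (E := fun _ => 1)
          (fun J k g => phi_abs hχ J k _)]
        congr 1
        funext k g
        rw [sum_abs_ib_phi hμ, mul_inv_cancel_left, mul_assoc, mul_inv_cancel_left]
      · rw [abs_mul, abs_abs, abs_of_nonneg (hχ.nonneg _ _)]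
        exact mul_le_one₀ (hμ.abs_sub_le _ _ _ _) (hχ.nonneg _ _) (hχ.le_one _ _)
    rw [e5] at e4
    refine e4.trans ?_
    obtain ⟨n, hn⟩ : ∃ n : ℝ, n = (DD.card : ℝ) := ⟨_, rfl⟩
    have hn0 : 0 ≤ n := by rw [hn]; positivity
    refine tA_le hR (C := n) (fun k g => ?_) hε (fun δ hδ => ?_) ξ
    · refine (Finset.abs_sum_le_sum_abs _ _).trans ?_
      rw [hn, ← nsmul_one DD.card, ← Finset.sum_const]
      refine Finset.sum_le_sum fun b _ => ?_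
      rw [one_mul, abs_mul, abs_abs, abs_of_nonneg (hχ.nonneg _ _)]
      exact mul_le_one₀ (hμ.abs_sub_le _ _ _ _) (hχ.nonneg _ _) (hχ.le_one _ _)
    · have h2 : ∀ᶠ k in U, ∀ b ∈ DD, ∀ g, |χ k (b⁻¹ * g) - χ k g| ≤ δ / (n + 1) := by
        rw [Filter.eventually_all_finset]
        intro b _
        exact hχ.left b⁻¹ _ (by positivity)
      filter_upwards [h2, hμ.left s hs] with k hk hk2 g
      have h3 : ∑ b ∈ DD, 1 * (|μ (s * b) (s * g) - μ b g| * χ k (b⁻¹ * g)) ≤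
          ∑ b ∈ DD, (|μ (s * b) (s * g) - μ b g| * χ k g + δ / (n + 1)) := by
        refine Finset.sum_le_sum fun b hb => ?_
        rw [one_mul]
        have h4 := (abs_le.mp (hk b hb g)).2
        have h5 := hμ.abs_sub_le (s * b) (s * g) b g
        have h6 := abs_nonneg (μ (s * b) (s * g) - μ b g)
        have h7 : 0 < δ / (n + 1) := by positivity
        nlinarith
      refine h3.trans ?_
      rw [Finset.sum_add_distrib, ← Finset.sum_mul, Finset.sum_const, nsmul_eq_mul, ← hn]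
      have h8 : n * (δ / (n + 1)) ≤ δ := by
        rw [mul_div_assoc', div_le_iff₀ (by positivity)]
        nlinarith
      have h9 : (∑ b ∈ DD, |μ (s * b) (s * g) - μ b g|) * χ k g ≤ ε := by
        by_cases h0 : χ k g = 0
        · rw [h0, mul_zero]; exact hε
        · have h10 := hk2 g h0
          rw [← hDD] at h10
          have h11 : 0 ≤ ∑ b ∈ DD, |μ (s * b) (s * g) - μ b g| :=
            Finset.sum_nonneg fun b _ => abs_nonneg _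
          exact (mul_le_of_le_one_right h11 (hχ.le_one _ _)).trans h10
      linarith

/-- The operators in the limit, row model. -/
theorem exists_TA [Countable Γ] (hR : ARep t R) (hE : EFam R E) (hχ : CutOff U χ)
    (K : Subgroup Λ)
    (hpc : ∀ v ∈ K, ∀ F : ℕ → Γ → ℝ, (∀ k g, |F k g| ≤ 1) →
      (∀ t : Γ, SmallA U R z (fun k g => F k (g * t) - F k g)) →
      PiA U R z F * R v = R v * PiA U R z F)
    (hA : ∀ (S : Finset Γ) (ε : ℝ), 0 < ε → ∃ (B : Finset Γ) (μ : Γ → Γ → ℝ), Amen U χ S ε B μ) :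
    ∃ T : Set Λ → (Ell2 (Γ × ι) →L[ℂ] Ell2 (Γ × ι)), (∀ A, 0 ≤ T A) ∧
      (∀ A A', Disjoint A A' → T (A ∪ A') = T A + T A') ∧
      (∀ ξ, tA U R z χ ξ ≤ (⟪ξ, T Set.univ ξ⟫_ℂ).re) ∧
      (∀ v ∈ K, ∀ A, T {w | w * v ∈ A} = R v * T A * R v⁻¹) ∧
      (∀ A, RA (T A)) := by
  obtain ⟨f, hf⟩ := exists_surjective_nat Γ
  have hex : ∀ n : ℕ, ∃ T : Set Λ → (Ell2 (Γ × ι) →L[ℂ] Ell2 (Γ × ι)), (∀ A, 0 ≤ T A) ∧
      (∀ A A', Disjoint A A' → T (A ∪ A') = T A + T A') ∧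
      (∀ ξ, (⟪ξ, T Set.univ ξ⟫_ℂ).re ≤ ‖ξ‖ ^ 2) ∧
      (∀ ξ, (1 - 1 / ((n : ℝ) + 1)) * tA U R z χ ξ ≤ (⟪ξ, T Set.univ ξ⟫_ℂ).re) ∧
      (∀ v ∈ K, ∀ A, T {w | w * v ∈ A} = R v * T A * R v⁻¹) ∧
      (∀ s ∈ (Finset.range n).image f, ∀ A ξ,
        |(⟪lx s ξ, T A (lx s ξ)⟫_ℂ).re - (⟪ξ, T A ξ⟫_ℂ).re| ≤ 1 / ((n : ℝ) + 1) * ‖ξ‖ ^ 2) := by
    intro n
    obtain ⟨B, μ, hμ⟩ := hA ((Finset.range n).image f) (1 / ((n : ℝ) + 1)) (by positivity)
    exact stepA hR hE hχ hμ (by positivity) K hpc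
  choose T hT0 hTadd hTle hTge hTcov hTlam using hex
  have hle : ∀ n A ξ, (⟪ξ, T n A ξ⟫_ℂ).re ≤ ‖ξ‖ ^ 2 := by
    intro n A ξ
    have h1 := hTadd n A Aᶜ disjoint_compl_right
    rw [Set.union_compl_self] at h1
    have h2 := hTle n ξ
    rw [h1, add_apply, inner_add_right, Complex.add_re] at h2
    have h3 := H108.inner_nonneg_of_nonneg (hT0 n Aᶜ) ξ
    linarith
  have hnorm : ∀ n A, ‖T n A‖ ≤ 1 := by
    intro n A
    refine H108.norm_le_of (hT0 n A) (re_mono_of_le (fun ξ => ?_) (hT0 n A) zero_le_one)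
    have h1 : (⟪ξ, (1 : Ell2 (Γ × ι) →L[ℂ] Ell2 (Γ × ι)) ξ⟫_ℂ).re = ‖ξ‖ ^ 2 := by
      rw [one_apply_eq_self, inner_self_eq_norm_sq_to_K]
      norm_cast
    rw [h1]
    exact hle n A ξ
  obtain ⟨W, hW⟩ : ∃ W : Ultrafilter ℕ, (W : Filter ℕ) ≤ atTop :=
    ⟨hyperfilter ℕ, Nat.hyperfilter_le_atTop⟩
  have hspec : ∀ A (ξ η : Ell2 (Γ × ι)), Tendsto (fun n => ⟪ξ, T n A η⟫_ℂ) W
      (𝓝 ⟪ξ, wl W (fun n => T n A) η⟫_ℂ) := fun A ξ η =>
    wl_spec W (fun n => hnorm n A) ξ η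
  have hre : ∀ A (ξ : Ell2 (Γ × ι)), Tendsto (fun n => (⟪ξ, T n A ξ⟫_ℂ).re) W
      (𝓝 (⟪ξ, wl W (fun n => T n A) ξ⟫_ℂ).re) := fun A ξ =>
    (Complex.continuous_re.tendsto _).comp (hspec A ξ ξ)
  have hlim : Tendsto (fun n : ℕ => 1 / ((n : ℝ) + 1)) W (𝓝 0) :=
    (tendsto_one_div_add_atTop_nhds_zero_nat (𝕜 := ℝ)).mono_left hW
  have hpos : ∀ A, 0 ≤ wl W (fun n => T n A) := fun A =>
    H108.nonneg_of_tendsto (l := (W : Filter ℕ)) (Eventually.of_forall fun n => hT0 n A) (hspec A)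
  refine ⟨fun A => wl W (fun n => T n A), hpos, ?_, ?_, ?_, ?_⟩
  · intro A A' h
    refine op_ext_inner fun ξ η => ?_
    refine tendsto_nhds_unique (hspec (A ∪ A') ξ η) ?_
    rw [add_apply, inner_add_right]
    refine ((hspec A ξ η).add (hspec A' ξ η)).congr fun n => ?_
    rw [hTadd n A A' h, add_apply, inner_add_right]
  · intro ξ
    have h1 : Tendsto (fun n : ℕ => (1 - 1 / ((n : ℝ) + 1)) * tA U R z χ ξ) W
        (𝓝 ((1 - 0) * tA U R z χ ξ)) := (hlim.const_sub 1).mul_const _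
    rw [sub_zero, one_mul] at h1
    exact le_of_tendsto_of_tendsto h1 (hre Set.univ ξ) (Eventually.of_forall fun n => hTge n ξ)
  · intro v hv A
    refine op_ext_inner fun ξ η => ?_
    rw [mul_ap, mul_ap, inner_r_right hR]
    refine tendsto_nhds_unique (hspec {w | w * v ∈ A} ξ η) ?_
    refine (hspec A (R v⁻¹ ξ) (R v⁻¹ η)).congr fun n => ?_
    rw [← inner_r_right hR, hTcov n v hv A, mul_ap, mul_ap]
  · intro A s
    have hs : ∀ ξ, (⟪lx s ξ, wl W (fun n => T n A) (lx s ξ)⟫_ℂ).re =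
        (⟪ξ, wl W (fun n => T n A) ξ⟫_ℂ).re := by
      intro ξ
      obtain ⟨n0, hn0⟩ := hf s
      have h1 := (hre A (lx s ξ)).sub (hre A ξ)
      have h2 : Tendsto (fun n => (⟪lx s ξ, T n A (lx s ξ)⟫_ℂ).re - (⟪ξ, T n A ξ⟫_ℂ).re) W
          (𝓝 0) := by
        rw [tendsto_zero_iff_norm_tendsto_zero]
        have h3 := hlim.mul_const (‖ξ‖ ^ 2)
        rw [zero_mul] at h3
        refine squeeze_zero' (Eventually.of_forall fun n => norm_nonneg _) ?_ h3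
        have h4 : ∀ᶠ n in (W : Filter ℕ), n0 < n := hW (eventually_gt_atTop n0)
        filter_upwards [h4] with n hn
        rw [Real.norm_eq_abs]
        exact hTlam n s (Finset.mem_image.mpr ⟨n0, Finset.mem_range.mpr hn, hn0⟩) A ξ
      have h5 := tendsto_nhds_unique h1 h2
      linarith
    have h6 : star (lx s) * wl W (fun n => T n A) * lx s = wl W (fun n => T n A) := by
      refine ext_re (star_left_conjugate_nonneg (hpos A) _) (hpos A) fun ξ => ?_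
      rw [mul_ap, mul_ap, star_eq_adjoint, adjoint_inner_right]
      exact hs ξ
    have h7 : lx s * star (lx s) = (1 : Ell2 (Γ × ι) →L[ℂ] Ell2 (Γ × ι)) := by
      rw [star_eq_adjoint, adjoint_lx, ← lx_mul, mul_inv_cancel, lx_one]
    have h8 := congrArg (fun X => lx s * X) h6
    rw [← mul_assoc, ← mul_assoc, h7, one_mul] at h8
    exact h8

end step

end row

end Vale.Agent.P092.H538
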