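import Vale.Agent.P092.H132.MassX

/-!
P092 (helper538): the coefficient version of the abstract row model.  A base for the group
`Γ × Γ₂` gives a base for `Γ` with the same right algebra: the left translations by `Γ₂` become
scalars.
-/

set_option linter.all false

open scoped InnerProductSpace
open Filter Topology ContinuousLinearMap

namespace Vale.Agent.P092.H538

open Vale.Agent.P092.H160 Vale.Agent.P092.H553 Vale.Agent.P092.H132

section fst

variable {Γ Γ₂ ι H D : Type} [Group Γ] [Group Γ₂] [Group D] [Fintype ι] [NormedAddCommGroup H]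
  [InnerProductSpace ℂ H] [CompleteSpace H] (B : Base (Γ × Γ₂) ι H)

/-- real part of a left translation by `Γ₂` -/
noncomputable def re2 (t : Γ₂) : H →L[ℂ] H := (2⁻¹ : ℂ) • (B.lx (1, t) + B.lx (1, t⁻¹))

/-- imaginary part of a left translation by `Γ₂` -/
noncomputable def im2 (t : Γ₂) : H →L[ℂ] H :=
  (Complex.I * 2⁻¹ : ℂ) • (B.lx (1, t) - B.lx (1, t⁻¹))

theorem lx_snd_eq (t : Γ₂) : B.lx (1, t) = re2 B t - Complex.I • im2 B t := by
  have h1 : Complex.I * (Complex.I * 2⁻¹) = -(2⁻¹ : ℂ) := by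
    rw [← mul_assoc, Complex.I_mul_I, neg_mul, one_mul]
  rw [re2, im2, smul_smul, h1, neg_smul, sub_neg_eq_add, smul_add, smul_sub]
  have h2 : (2⁻¹ : ℂ) • B.lx (1, t) + (2⁻¹ : ℂ) • B.lx (1, t) = B.lx (1, t) := by
    rw [← add_smul]; norm_num
  calc B.lx (1, t) = (2⁻¹ : ℂ) • B.lx (1, t) + (2⁻¹ : ℂ) • B.lx (1, t) := h2.symm
    _ = _ := by abel

theorem re2_one : re2 B 1 = 1 := by
  rw [re2, inv_one]
  have h1 : B.lx ((1 : Γ), (1 : Γ₂)) = 1 := B.lx_one
  rw [h1, ← two_smul ℂ, smul_smul]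
  norm_num

theorem lx_snd_adj (t : Γ₂) : adjoint (B.lx (1, t)) = B.lx (1, t⁻¹) := by
  rw [B.lx_adj, Prod.inv_mk, inv_one]

theorem re2_adj (t : Γ₂) : adjoint (re2 B t) = re2 B t := by
  rw [re2, map_smulₛₗ, map_add, lx_snd_adj, lx_snd_adj, inv_inv, add_comm]
  congr 1
  rw [map_inv₀, Complex.conj_ofNat]

theorem im2_adj (t : Γ₂) : adjoint (im2 B t) = im2 B t := by
  rw [im2, map_smulₛₗ, map_sub, lx_snd_adj, lx_snd_adj, inv_inv]
  have h1 : (starRingEnd ℂ) (Complex.I * 2⁻¹) = -(Complex.I * 2⁻¹) := by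
    rw [map_mul, Complex.conj_I, map_inv₀, Complex.conj_ofNat, neg_mul]
  rw [h1, neg_smul, ← smul_neg, neg_sub]

theorem norm_lx_le (s : Γ × Γ₂) : ‖B.lx s‖ ≤ 1 :=
  ContinuousLinearMap.opNorm_le_bound _ zero_le_one fun ξ => by rw [one_mul, B.norm_lx]

theorem re2_le (t : Γ₂) : ‖re2 B t‖ ≤ 1 := by
  rw [re2, norm_smul]
  have h1 : ‖B.lx (1, t) + B.lx (1, t⁻¹)‖ ≤ 2 := by
    refine (norm_add_le _ _).trans ?_
    have := norm_lx_le B (1, t)
    have := norm_lx_le B (1, t⁻¹)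
    linarith
  have h2 : ‖(2⁻¹ : ℂ)‖ = 2⁻¹ := by norm_num
  rw [h2]
  linarith

theorem im2_le (t : Γ₂) : ‖im2 B t‖ ≤ 1 := by
  rw [im2, norm_smul]
  have h1 : ‖B.lx (1, t) - B.lx (1, t⁻¹)‖ ≤ 2 := by
    refine (norm_sub_le _ _).trans ?_
    have := norm_lx_le B (1, t)
    have := norm_lx_le B (1, t⁻¹)
    linarith
  have h2 : ‖(Complex.I * 2⁻¹ : ℂ)‖ = 2⁻¹ := by
    rw [norm_mul, Complex.norm_I, one_mul]; norm_num
  rw [h2]
  linarith

/-- An operator which commutes with all translations by `Γ₂` commutes with the real and imaginary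
parts. -/
theorem comm_re2 {T : H →L[ℂ] H} (h : ∀ t : Γ₂, T * B.lx (1, t) = B.lx (1, t) * T) (t : Γ₂) :
    T * re2 B t = re2 B t * T := by
  rw [re2, mul_smul_comm, smul_mul_assoc, mul_add, add_mul, h, h]

theorem comm_im2 {T : H →L[ℂ] H} (h : ∀ t : Γ₂, T * B.lx (1, t) = B.lx (1, t) * T) (t : Γ₂) :
    T * im2 B t = im2 B t * T := by
  rw [im2, mul_smul_comm, smul_mul_assoc, mul_sub, sub_mul, h, h]

theorem comm_lx2 {T : H →L[ℂ] H} (h1 : ∀ t : Γ₂, T * re2 B t = re2 B t * T)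
    (h2 : ∀ t : Γ₂, T * im2 B t = im2 B t * T) (t : Γ₂) : T * B.lx (1, t) = B.lx (1, t) * T := by
  rw [lx_snd_eq, mul_sub, sub_mul, h1, mul_smul_comm, smul_mul_assoc, h2]

/-- The scalars of `Base.fst`. -/
def sc2 : Set (H →L[ℂ] H) :=
  {c | ∃ a ∈ B.sc, ∃ t : Γ₂, c = re2 B t * a ∨ c = im2 B t * a}

theorem mem_sc2_re {a : H →L[ℂ] H} (ha : a ∈ B.sc) (t : Γ₂) : re2 B t * a ∈ sc2 B :=
  ⟨a, ha, t, Or.inl rfl⟩

theorem mem_sc2_im {a : H →L[ℂ] H} (ha : a ∈ B.sc) (t : Γ₂) : im2 B t * a ∈ sc2 B :=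
  ⟨a, ha, t, Or.inr rfl⟩

theorem sc_mem_sc2 {a : H →L[ℂ] H} (ha : a ∈ B.sc) : a ∈ sc2 B := by
  have h := mem_sc2_re B ha (1 : Γ₂)
  rwa [re2_one, one_mul] at h

theorem lx_split (s : Γ) (t : Γ₂) : B.lx (s, t) = B.lx (s, 1) * B.lx (1, t) := by
  rw [← B.lx_mul, Prod.mk_mul_mk, mul_one, one_mul]

theorem lx_comm12 (s : Γ) (t : Γ₂) : B.lx (s, 1) * B.lx (1, t) = B.lx (1, t) * B.lx (s, 1) := by
  rw [← B.lx_mul, ← B.lx_mul, Prod.mk_mul_mk, Prod.mk_mul_mk, mul_one, one_mul, mul_one, one_mul]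

/-- The two right algebras coincide. -/
theorem raof_fst {T : H →L[ℂ] H} :
    RAof (fun s : Γ => B.lx (s, 1)) (sc2 B) T ↔ RAof B.lx B.sc T := by
  constructor
  · rintro ⟨h1, h2⟩
    have h3 : ∀ t : Γ₂, T * B.lx (1, t) = B.lx (1, t) * T := by
      refine comm_lx2 B (fun t => ?_) fun t => ?_
      · have h := h2 _ (mem_sc2_re B B.sc_one t)
        rwa [mul_one] at h
      · have h := h2 _ (mem_sc2_im B B.sc_one t)
        rwa [mul_one] at h
    refine ⟨?_, fun a ha => h2 a (sc_mem_sc2 B ha)⟩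
    rintro ⟨s, t⟩
    rw [lx_split, ← mul_assoc, h1, mul_assoc, h3, mul_assoc]
  · rintro ⟨h1, h2⟩
    refine ⟨fun s => h1 _, ?_⟩
    rintro c ⟨a, ha, t, rfl | rfl⟩
    · rw [← mul_assoc, comm_re2 B (fun t => h1 _), mul_assoc, h2 a ha, mul_assoc]
    · rw [← mul_assoc, comm_im2 B (fun t => h1 _), mul_assoc, h2 a ha, mul_assoc]

theorem mp_snd_comm {F : Γ → ℝ} {C : ℝ} (hF : ∀ g, |F g| ≤ C) (t : Γ₂) :
    B.mp (fun x => F x.1) * B.lx (1, t) = B.lx (1, t) * B.mp (fun x => F x.1) := by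
  rw [B.lx_mp (F := fun x : Γ × Γ₂ => F x.1) (fun x => hF x.1)]
  congr 2
  funext x
  simp

theorem inner_split (s : Γ) (t : Γ₂) (ξ η : H) : ⟪B.lx (s, t) η, ξ⟫_ℂ =
    ⟪B.lx (s, 1) (re2 B t η), ξ⟫_ℂ + Complex.I * ⟪B.lx (s, 1) (im2 B t η), ξ⟫_ℂ := by
  rw [lx_split, lx_snd_eq, mul_ap, sub_apply, smul_apply, map_sub, map_smul, inner_sub_left,
    inner_smul_left, Complex.conj_I]
  ring

/-- **The coefficient base.** -/
noncomputable def fst : Base Γ ι H where
  lx := fun s => B.lx (s, 1)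
  mp := fun F => B.mp (fun x => F x.1)
  sc := sc2 B
  ep := B.ep
  lx_mul := fun s t => by rw [← B.lx_mul, Prod.mk_mul_mk, mul_one]
  lx_one := B.lx_one
  lx_adj := fun s => by rw [B.lx_adj, Prod.inv_mk, inv_one]
  mp_one := B.mp_one
  mp_add := fun hF hG => B.mp_add (fun x => hF x.1) (fun x => hG x.1)
  mp_smul := fun c F C hF => B.mp_smul c (F := fun x : Γ × Γ₂ => F x.1) (fun x => hF x.1)
  mp_mul := fun hF hG => B.mp_mul (fun x => hF x.1) (fun x => hG x.1)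
  mp_adj := fun hF => B.mp_adj (fun x => hF x.1)
  lx_mp := fun {F C} hF s => by
    rw [B.lx_mp (F := fun x : Γ × Γ₂ => F x.1) (fun x => hF x.1)]
    rfl
  sc_one := sc_mem_sc2 B B.sc_one
  sc_adj := by
    rintro c ⟨a, ha, t, rfl | rfl⟩
    · rw [adj_mul, re2_adj, B.sc_adj a ha, comm_re2 B fun t => B.sc_lx a ha _]
    · rw [adj_mul, im2_adj, B.sc_adj a ha, comm_im2 B fun t => B.sc_lx a ha _]
  sc_le := by
    rintro c ⟨a, ha, t, rfl | rfl⟩
    · exact (norm_mul_le _ _).trans (mul_le_one₀ (re2_le B t) (norm_nonneg _) (B.sc_le a ha))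
    · exact (norm_mul_le _ _).trans (mul_le_one₀ (im2_le B t) (norm_nonneg _) (B.sc_le a ha))
  sc_lx := by
    rintro c ⟨a, ha, t, rfl | rfl⟩ s
    · rw [mul_assoc, B.sc_lx a ha, ← mul_assoc, ← mul_assoc,
        comm_re2 B fun t => lx_comm12 B s t]
    · rw [mul_assoc, B.sc_lx a ha, ← mul_assoc, ← mul_assoc,
        comm_im2 B fun t => lx_comm12 B s t]
  sc_mp := by
    rintro c ⟨a, ha, t, rfl | rfl⟩ F C hF
    · rw [mul_assoc, B.sc_mp a ha (F := fun x : Γ × Γ₂ => F x.1) (fun x => hF x.1), ← mul_assoc,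
        ← mul_assoc, comm_re2 B fun t => mp_snd_comm B hF t]
    · rw [mul_assoc, B.sc_mp a ha (F := fun x : Γ × Γ₂ => F x.1) (fun x => hF x.1), ← mul_assoc,
        ← mul_assoc, comm_im2 B fun t => mp_snd_comm B hF t]
  total := fun ξ h => B.total ξ fun s a ha i => by
    obtain ⟨s, t⟩ := s
    rw [inner_split]
    have h1 := h s _ (mem_sc2_re B ha t) i
    have h2 := h s _ (mem_sc2_im B ha t) i
    rw [mul_ap] at h1 h2
    rw [h1, h2, mul_zero, add_zero]
  exch := fun {S T} hS hT {q C} hq =>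
    B.exch ((raof_fst B).1 hS) ((raof_fst B).1 hT) (q := fun x : Γ × Γ₂ => q x.1) (fun x => hq x.1)
  appr := fun {T} hT {ε} hε => by
    obtain ⟨n, X, u, h1, h2, h3⟩ := B.appr ((raof_fst B).1 hT) hε
    exact ⟨n, X, fun j => (u j).1, fun j => (raof_fst B).2 (h1 j),
      fun j {F C} hF => h2 j (F := fun x : Γ × Γ₂ => F x.1) (fun x => hF x.1), h3⟩

theorem ra_fst {T : H →L[ℂ] H} : (fst B).RA T ↔ B.RA T := raof_fst B

theorem fst_ep (i : ι) : (fst B).ep i = B.ep i := rfl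

theorem fst_mp (F : Γ → ℝ) : (fst B).mp F = B.mp (fun x => F x.1) := rfl

theorem fst_lx (s : Γ) : (fst B).lx s = B.lx (s, 1) := rfl

variable {B}

theorem koop_fst {K : H →L[ℂ] H} (h : Koop B K) : Koop (fst B) K where
  left := h.left
  right := h.right
  lx := fun s => h.lx _
  mp := fun {F C} hF => h.mp (F := fun x : Γ × Γ₂ => F x.1) (fun x => hF x.1)
  ep := h.ep
  sc := by
    rintro c ⟨a, ha, t, rfl | rfl⟩
    · have e : K * (re2 B t * a) * adjoint K = re2 B t * (K * a * adjoint K) := by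
        rw [← mul_assoc, comm_re2 B fun t => h.lx _]
        simp only [mul_assoc]
      rw [e]
      exact mem_sc2_re B (h.sc a ha) t
    · have e : K * (im2 B t * a) * adjoint K = im2 B t * (K * a * adjoint K) := by
        rw [← mul_assoc, comm_im2 B fun t => h.lx _]
        simp only [mul_assoc]
      rw [e]
      exact mem_sc2_im B (h.sc a ha) t
  sc' := by
    rintro c ⟨a, ha, t, rfl | rfl⟩
    · have e : adjoint K * (re2 B t * a) * K = re2 B t * (adjoint K * a * K) := by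
        rw [← mul_assoc, comm_re2 B fun t => h.adj_lx _]
        simp only [mul_assoc]
      rw [e]
      exact mem_sc2_re B (h.sc' a ha) t
    · have e : adjoint K * (im2 B t * a) * K = im2 B t * (adjoint K * a * K) := by
        rw [← mul_assoc, comm_im2 B fun t => h.adj_lx _]
        simp only [mul_assoc]
      rw [e]
      exact mem_sc2_im B (h.sc' a ha) t

theorem nr_fst {T : H →L[ℂ] H} (h : NR B T) : NR (fst B) T := by
  obtain ⟨X, K, hX, hK, e⟩ := h
  exact ⟨X, K, (ra_fst B).2 hX, koop_fst hK, e⟩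

variable {t : ℝ} {R : D → (H →L[ℂ] H)}

/-- **Representations.** -/
theorem trep_fst (h : TRep B t R) : TRep (fst B) t R where
  nr := fun v => nr_fst (h.nr v)
  mul := h.mul
  adj := h.adj
  one := (ra_fst B).2 h.one
  pos := h.pos
  tr_one := h.tr_one

/-- **Masses.** -/
theorem massX_fst (B : Base (Γ × Γ₂) ι H) (R : D → (H →L[ℂ] H)) (w : D) (F : Γ → ℝ) :
    massX (fst B) R w F = massX B R w (fun x => F x.1) := rfl

/-- Covariant families: only the commutation with the translations by `Γ₂` has to be added. -/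
theorem efamX_fst {Y : Type} [MulAction D Y] {Ms : Set (Set Y)} {E : Set Y → (H →L[ℂ] H)}
    (h : EFamX B R Ms E) (h2 : ∀ A ∈ Ms, ∀ t : Γ₂, E A * B.lx (1, t) = B.lx (1, t) * E A) :
    EFamX (fst B) R Ms E where
  nonneg := h.nonneg
  add := h.add
  univ := h.univ
  cov := h.cov
  sc := by
    rintro A hA c ⟨a, ha, t, rfl | rfl⟩
    · rw [← mul_assoc, comm_re2 B fun t => h2 A hA t, mul_assoc, h.sc A hA a ha, mul_assoc]
    · rw [← mul_assoc, comm_im2 B fun t => h2 A hA t, mul_assoc, h.sc A hA a ha, mul_assoc]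

theorem efamT_fst {E : Set D → (H →L[ℂ] H)} (h : EFamT B R E)
    (h2 : ∀ A, ∀ t : Γ₂, E A * B.lx (1, t) = B.lx (1, t) * E A) : EFamT (fst B) R E where
  nonneg := h.nonneg
  add := h.add
  univ := h.univ
  cov := h.cov
  sc := by
    rintro A c ⟨a, ha, t, rfl | rfl⟩
    · rw [← mul_assoc, comm_re2 B fun t => h2 A t, mul_assoc, h.sc A a ha, mul_assoc]
    · rw [← mul_assoc, comm_im2 B fun t => h2 A t, mul_assoc, h.sc A a ha, mul_assoc]

end fst

end Vale.Agent.P092.H538
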