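import Vale.Agent.P092.H538.Layer
import Vale.Agent.P092.H553.Lim
import Vale.Agent.P092.H200.InvMean

/-!
P092 (helper538): the projections onto the closed span of a part of a Hilbert basis, and the
operators `∑_b ∑_{J ∋ b} λ_b c_J* E_A c_J λ_b*`.
-/

set_option linter.all false

open scoped InnerProductSpace
open Filter Topology ContinuousLinearMap

namespace Vale.Agent.P092.H538

open Vale.Agent.P092.H160 Vale.Agent.P092.H553

open Classical in
/-- Indicator function. -/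
noncomputable def ind {X : Type} (P : X → Prop) : X → ℝ := fun x => if P x then 1 else 0

theorem ind_nonneg {X : Type} (P : X → Prop) (x : X) : 0 ≤ ind P x := by
  unfold ind; split_ifs <;> norm_num

theorem ind_le_one {X : Type} (P : X → Prop) (x : X) : ind P x ≤ 1 := by
  unfold ind; split_ifs <;> norm_num

theorem abs_ind_le {X : Type} (P : X → Prop) (x : X) : |ind P x| ≤ 1 := by
  rw [abs_of_nonneg (ind_nonneg P x)]; exact ind_le_one P x

theorem ind_pos {X : Type} {P : X → Prop} {x : X} (h : P x) : ind P x = 1 := by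
  unfold ind; rw [if_pos h]

theorem ind_neg {X : Type} {P : X → Prop} {x : X} (h : ¬ P x) : ind P x = 0 := by
  unfold ind; rw [if_neg h]

section EA

variable {Λ H : Type} [NormedAddCommGroup H] [InnerProductSpace ℂ H] [CompleteSpace H]
  (b : HilbertBasis Λ ℂ H) {A A' : Set Λ}

/-- The projection onto the closed span of the `b w`, `w ∈ A`. -/
noncomputable def EA (A : Set Λ) : H →L[ℂ] H :=
  (b.repr.symm.toContinuousLinearEquiv : Ell2 Λ →L[ℂ] H) ∘L mo (ind fun w => w ∈ A) ∘L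
    (b.repr.toContinuousLinearEquiv : H →L[ℂ] Ell2 Λ)

theorem EA_apply (ξ : H) : EA b A ξ = b.repr.symm (mo (ind fun w => w ∈ A) (b.repr ξ)) := rfl

theorem inner_EA (ξ η : H) :
    ⟪ξ, EA b A η⟫_ℂ = ⟪b.repr ξ, mo (ind fun w => w ∈ A) (b.repr η)⟫_ℂ := by
  rw [EA_apply, ← b.repr.inner_map_map, b.repr.apply_symm_apply]

theorem EA_re_nonneg (ξ : H) : 0 ≤ (⟪ξ, EA b A ξ⟫_ℂ).re := by
  rw [inner_EA, inner_mo (abs_ind_le _), Complex.ofReal_re]
  exact tsum_nonneg fun w => mul_nonneg (ind_nonneg _ _) (by positivity)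

theorem EA_re_le (ξ : H) : (⟪ξ, EA b A ξ⟫_ℂ).re ≤ ‖ξ‖ ^ 2 := by
  have h := inner_mo_re_mono (abs_ind_le fun w => w ∈ A) (G := fun _ => 1) (D := 1)
    (fun x => by simp) (ind_le_one _) (b.repr ξ)
  rw [← inner_EA, mo_one, inner_self_eq_norm_sq_to_K, b.repr.norm_map] at h
  exact_mod_cast h

theorem EA_sym (ξ η : H) : ⟪EA b A ξ, η⟫_ℂ = ⟪ξ, EA b A η⟫_ℂ := by
  rw [← inner_conj_symm, inner_EA, inner_conj_symm, inner_mo_left (abs_ind_le _), inner_EA]

theorem EA_nonneg : 0 ≤ EA b A := by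
  refine H108.nonneg_of_inner ?_ (EA_re_nonneg b)
  rw [IsSelfAdjoint, star_eq_adjoint, eq_comm, ContinuousLinearMap.eq_adjoint_iff]
  exact EA_sym b

theorem b_ext {S T : H →L[ℂ] H} (h : ∀ w, S (b w) = T (b w)) : S = T := by
  ext ξ
  have h1 := (b.hasSum_repr ξ).mapL S
  have h2 := (b.hasSum_repr ξ).mapL T
  simp only [map_smul, h] at h1 h2
  exact h1.unique h2

open Classical in
theorem EA_b (w : Λ) : EA b A (b w) = if w ∈ A then b w else 0 := by
  have h : b.repr (b w) = dl w := by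
    rw [b.repr_self, dl]
  have h2 : mo (ind fun w => w ∈ A) (dl w : Ell2 Λ) = if w ∈ A then dl w else 0 := by
    ext x
    rw [mo_apply (abs_ind_le _), dl_apply]
    by_cases hx : x = w
    · subst hx
      by_cases hA : x ∈ A
      · rw [if_pos hA, ind_pos (P := fun w => w ∈ A) hA, dl_apply]; simp
      · rw [if_neg hA, ind_neg (P := fun w => w ∈ A) hA]; simp
    · split_ifs <;> simp [dl_apply, hx]
  rw [EA_apply, h, h2]
  split_ifs
  · rw [← h, b.repr.symm_apply_apply]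
  · simp

theorem EA_union (h : Disjoint A A') : EA b (A ∪ A') = EA b A + EA b A' := by
  classical
  refine b_ext b fun w => ?_
  rw [add_apply, EA_b, EA_b, EA_b]
  by_cases h1 : w ∈ A
  · have h2 : w ∉ A' := Set.disjoint_left.mp h h1
    simp [h1, h2]
  · by_cases h2 : w ∈ A' <;> simp [h1, h2]

theorem EA_univ : EA b Set.univ = 1 := by
  classical
  refine b_ext b fun w => ?_
  rw [EA_b]
  simp

/-- covariance -/
theorem EA_cov {W : H →L[ℂ] H} {σ : Λ → Λ} (hW : ∀ w, W (b w) = b (σ w))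
    (hσ : ∀ w, σ w ∈ A' ↔ w ∈ A) : EA b A' * W = W * EA b A := by
  classical
  refine b_ext b fun w => ?_
  rw [mul_ap, mul_ap, hW, EA_b, EA_b]
  by_cases h : w ∈ A
  · rw [if_pos h, if_pos ((hσ w).mpr h), hW]
  · rw [if_neg h, if_neg fun h2 => h ((hσ w).mp h2), map_zero]

end EA

section TT

variable {Γ Λ : Type} [Group Γ] (bs : HilbertBasis Λ ℂ (Ell2 Γ)) (B : Finset Γ)
  (c : Finset Γ → (Ell2 Γ →L[ℂ] Ell2 Γ)) {A A' : Set Λ}

open Classical in
/-- `∑_b ∑_{J ∋ b} λ_b c_J* E_A c_J λ_b*`. -/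
noncomputable def TT (A : Set Λ) : Ell2 Γ →L[ℂ] Ell2 Γ :=
  ∑ b ∈ B, ∑ J ∈ B.powerset.filter (fun J => b ∈ J),
    star (c J * lam b⁻¹) * EA bs A * (c J * lam b⁻¹)

/-- the form of `c_J* E_A c_J` at `λ_b* ξ` -/
noncomputable def qq (A : Set Λ) (ξ : Ell2 Γ) (b : Γ) (J : Finset Γ) : ℝ :=
  (⟪c J (lam b⁻¹ ξ), EA bs A (c J (lam b⁻¹ ξ))⟫_ℂ).re

theorem TT_nonneg : 0 ≤ TT bs B c A := by
  refine Finset.sum_nonneg fun b _ => Finset.sum_nonneg fun J _ => ?_
  exact star_left_conjugate_nonneg (EA_nonneg bs) _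

theorem TT_union (h : Disjoint A A') : TT bs B c (A ∪ A') = TT bs B c A + TT bs B c A' := by
  rw [TT, TT, TT, ← Finset.sum_add_distrib]
  refine Finset.sum_congr rfl fun b _ => ?_
  rw [← Finset.sum_add_distrib]
  refine Finset.sum_congr rfl fun J _ => ?_
  rw [EA_union bs h, mul_add, add_mul]

theorem TT_re (ξ : Ell2 Γ) : (⟪ξ, TT bs B c A ξ⟫_ℂ).re =
    ∑ b ∈ B, ∑ J ∈ B.powerset, ib b J * qq bs c A ξ b J := by
  classical
  rw [TT, sum_apply, inner_sum, Complex.re_sum]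
  refine Finset.sum_congr rfl fun b _ => ?_
  rw [sum_apply, inner_sum, Complex.re_sum, Finset.sum_filter]
  refine Finset.sum_congr rfl fun J _ => ?_
  rw [ib]
  split_ifs
  · rw [one_mul, qq, mul_ap, mul_ap, star_eq_adjoint, adjoint_inner_right, mul_ap]
  · rw [zero_mul]

theorem qq_nonneg (ξ : Ell2 Γ) (b : Γ) (J : Finset Γ) : 0 ≤ qq bs c A ξ b J :=
  EA_re_nonneg bs _

theorem qq_le (ξ : Ell2 Γ) (b : Γ) (J : Finset Γ) :
    qq bs c A ξ b J ≤ (⟪lam b⁻¹ ξ, (star (c J) * c J) (lam b⁻¹ ξ)⟫_ℂ).re := by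
  refine (EA_re_le bs _).trans ?_
  rw [mul_ap, star_eq_adjoint, adjoint_inner_right, inner_self_eq_norm_sq_to_K]
  refine le_of_eq ?_
  norm_cast

theorem qq_univ (ξ : Ell2 Γ) (b : Γ) (J : Finset Γ) :
    qq bs c Set.univ ξ b J = (⟪lam b⁻¹ ξ, (star (c J) * c J) (lam b⁻¹ ξ)⟫_ℂ).re := by
  rw [qq, EA_univ, mul_ap, star_eq_adjoint, adjoint_inner_right]
  rfl

theorem qq_lam (ξ : Ell2 Γ) (s b : Γ) (J : Finset Γ) :
    qq bs c A (lam s⁻¹ ξ) b J = qq bs c A ξ (s * b) J := by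
  rw [qq, qq, mul_inv_rev, lam_mul]
  rfl

/-- covariance of `TT` -/
theorem TT_cov {W W' : Ell2 Γ →L[ℂ] Ell2 Γ} {σ : Λ → Λ} (hW : ∀ w, W (bs w) = bs (σ w))
    (hσ : ∀ w, σ w ∈ A' ↔ w ∈ A) (hWW : star W = W')
    (hl : ∀ g, W * lam g = lam g * W) (hc : ∀ J ∈ B.powerset, W * c J = c J * W)
    (hc' : ∀ J ∈ B.powerset, W' * c J = c J * W') (hl' : ∀ g, W' * lam g = lam g * W') :
    TT bs B c A' * W = W * TT bs B c A := by
  classical
  rw [TT, TT, Finset.sum_mul, Finset.mul_sum]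
  refine Finset.sum_congr rfl fun b _ => ?_
  rw [Finset.sum_mul, Finset.mul_sum]
  refine Finset.sum_congr rfl fun J hJ => ?_
  have hJ' := (Finset.mem_filter.mp hJ).1
  have h1 : (c J * lam b⁻¹) * W = W * (c J * lam b⁻¹) := by
    rw [mul_assoc, ← hl, ← mul_assoc, ← hc J hJ', mul_assoc]
  have h2 : (c J * lam b⁻¹) * W' = W' * (c J * lam b⁻¹) := by
    rw [mul_assoc, ← hl', ← mul_assoc, ← hc' J hJ', mul_assoc]
  have h3 : star (c J * lam b⁻¹) * W = W * star (c J * lam b⁻¹) := by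
    have := congrArg star h2
    rw [star_mul, star_mul W', ← hWW, star_star] at this
    exact this.symm
  calc star (c J * lam b⁻¹) * EA bs A' * (c J * lam b⁻¹) * W
      = star (c J * lam b⁻¹) * EA bs A' * ((c J * lam b⁻¹) * W) := by rw [mul_assoc]
    _ = star (c J * lam b⁻¹) * EA bs A' * (W * (c J * lam b⁻¹)) := by rw [h1]
    _ = star (c J * lam b⁻¹) * (EA bs A' * W) * (c J * lam b⁻¹) := by simp only [mul_assoc]
    _ = star (c J * lam b⁻¹) * (W * EA bs A) * (c J * lam b⁻¹) := by rw [EA_cov bs hW hσ]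
    _ = (star (c J * lam b⁻¹) * W) * EA bs A * (c J * lam b⁻¹) := by simp only [mul_assoc]
    _ = (W * star (c J * lam b⁻¹)) * EA bs A * (c J * lam b⁻¹) := by rw [h3]
    _ = _ := by simp only [mul_assoc]

end TT

end Vale.Agent.P092.H538
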