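import Mathlib

/-!
P092 (helper538): layer-cake partitions of unity.  For `m : ι → ℝ` and a finite set `B` let
`lev B m θ = {b ∈ B | θ < m b}`; `lf B J m` is the measure of the `θ ∈ (0,1)` with `lev B m θ = J`.
-/

set_option linter.all false

open MeasureTheory Set

namespace Vale.Agent.P092.H538

open Classical in
/-- The level set `{b ∈ B | θ < m b}`. -/
noncomputable def lev {ι : Type} (B : Finset ι) (m : ι → ℝ) (θ : ℝ) : Finset ι :=
  B.filter fun b => θ < m b

/-- Lebesgue measure on `(0,1)`. -/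
noncomputable def PP : Measure ℝ := volume.restrict (Ioo (0 : ℝ) 1)

instance : IsProbabilityMeasure PP := ⟨by simp [PP]⟩

/-- The measure of `{θ | lev B m θ = J}`. -/
noncomputable def lf {ι : Type} (B J : Finset ι) (m : ι → ℝ) : ℝ := PP.real {θ | lev B m θ = J}

variable {ι : Type} {B : Finset ι}

theorem mem_lev {m : ι → ℝ} {θ : ℝ} {b : ι} : b ∈ lev B m θ ↔ b ∈ B ∧ θ < m b := by
  classical
  simp [lev]

theorem lev_mem (m : ι → ℝ) (θ : ℝ) : lev B m θ ∈ B.powerset := by
  classical
  rw [Finset.mem_powerset]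
  intro b hb
  exact (mem_lev.mp hb).1

theorem meas_lev (m : ι → ℝ) (J : Finset ι) : MeasurableSet {θ | lev B m θ = J} := by
  classical
  by_cases hJ : J ⊆ B
  · have h : {θ | lev B m θ = J} = ⋂ b ∈ B, (if b ∈ J then Iio (m b) else Ici (m b)) := by
      ext θ
      simp only [mem_ofPred_eq, mem_iInter]
      constructor
      · intro h b hb
        by_cases hbJ : b ∈ J
        · rw [if_pos hbJ]
          rw [← h] at hbJ
          exact (mem_lev.mp hbJ).2
        · rw [if_neg hbJ]
          rw [← h, mem_lev] at hbJ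
          exact not_lt.mp fun h2 => hbJ ⟨hb, h2⟩
      · intro h
        ext b
        rw [mem_lev]
        constructor
        · rintro ⟨hb, h2⟩
          by_contra hbJ
          have := h b hb
          rw [if_neg hbJ] at this
          exact absurd h2 (not_lt.mpr this)
        · intro hbJ
          have := h b (hJ hbJ)
          rw [if_pos hbJ] at this
          exact ⟨hJ hbJ, this⟩
    rw [h]
    refine Finset.measurableSet_biInter _ fun b _ => ?_
    split_ifs
    · exact measurableSet_Iio
    · exact measurableSet_Ici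
  · have h : {θ | lev B m θ = J} = ∅ := by
      ext θ
      simp only [mem_ofPred_eq, mem_empty_iff_false, iff_false]
      intro h
      exact hJ (h ▸ Finset.mem_powerset.mp (lev_mem m θ))
    rw [h]
    exact MeasurableSet.empty

theorem lf_nonneg (J : Finset ι) (m : ι → ℝ) : 0 ≤ lf B J m := measureReal_nonneg

theorem lf_le_one (J : Finset ι) (m : ι → ℝ) : lf B J m ≤ 1 := measureReal_le_one

/-- pointwise expansion -/
theorem c_lev (c : Finset ι → ℝ) (m : ι → ℝ) (θ : ℝ) :
    c (lev B m θ) = ∑ J ∈ B.powerset, c J * ({θ | lev B m θ = J}.indicator 1 θ : ℝ) := by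
  classical
  rw [Finset.sum_eq_single (lev B m θ)]
  · simp
  · intro J _ hJ
    rw [indicator_of_notMem]
    · simp
    · intro h
      exact hJ h.symm
  · intro h
    exact absurd (lev_mem m θ) h

theorem integrable_lev (c : Finset ι → ℝ) (m : ι → ℝ) :
    Integrable (fun θ => c (lev B m θ)) PP := by
  have h : (fun θ => c (lev B m θ)) =
      fun θ => ∑ J ∈ B.powerset, c J * ({θ | lev B m θ = J}.indicator 1 θ : ℝ) := by
    funext θ
    exact c_lev c m θ
  rw [h]
  refine integrable_finsetSum _ fun J _ => Integrable.const_mul ?_ _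
  exact (integrable_const (1 : ℝ)).indicator (meas_lev m J)

/-- `∑_J c(J) lf_J = ∫ c(lev)`. -/
theorem sum_lf (c : Finset ι → ℝ) (m : ι → ℝ) :
    ∑ J ∈ B.powerset, c J * lf B J m = ∫ θ, c (lev B m θ) ∂PP := by
  have h : (fun θ => c (lev B m θ)) =
      fun θ => ∑ J ∈ B.powerset, c J * ({θ | lev B m θ = J}.indicator 1 θ : ℝ) := by
    funext θ
    exact c_lev c m θ
  rw [h, integral_finsetSum]
  · refine Finset.sum_congr rfl fun J _ => ?_
    rw [integral_const_mul, integral_indicator_one (meas_lev m J)]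
    rfl
  · intro J _
    refine Integrable.const_mul ?_ _
    exact (integrable_const (1 : ℝ)).indicator (meas_lev m J)

theorem ae_PP : ∀ᵐ θ ∂PP, 0 < θ ∧ θ < 1 := by
  have := ae_restrict_mem (μ := volume) (s := Ioo (0 : ℝ) 1) measurableSet_Ioo
  exact this

/-- `∫ 1[θ < a] = a`. -/
theorem int_step {a : ℝ} (h0 : 0 ≤ a) (h1 : a ≤ 1) :
    ∫ θ, (Iio a).indicator (1 : ℝ → ℝ) θ ∂PP = a := by
  rw [integral_indicator_one measurableSet_Iio, PP, measureReal_restrict_apply measurableSet_Iio]
  have h : Iio a ∩ Ioo 0 1 = Ioo 0 a := by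
    ext x
    simp only [mem_inter_iff, mem_Iio, mem_Ioo]
    constructor
    · rintro ⟨h2, h3, h4⟩
      exact ⟨h3, h2⟩
    · rintro ⟨h2, h3⟩
      exact ⟨h3, h2, h3.trans_le h1⟩
  rw [h]
  simp [h0]

theorem integrable_step (a : ℝ) : Integrable ((Iio a).indicator (1 : ℝ → ℝ)) PP :=
  (integrable_const (1 : ℝ)).indicator measurableSet_Iio

open Classical in
/-- the indicator of `b ∈ J` -/
noncomputable def ib (b : ι) (J : Finset ι) : ℝ := if b ∈ J then 1 else 0

theorem ib_nonneg (b : ι) (J : Finset ι) : 0 ≤ ib b J := by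
  rw [ib]; split_ifs <;> norm_num

theorem ib_le_one (b : ι) (J : Finset ι) : ib b J ≤ 1 := by
  rw [ib]; split_ifs <;> norm_num

theorem ib_zero {b : ι} {J : Finset ι} (hJ : J ∈ B.powerset) (hb : b ∉ B) : ib b J = 0 := by
  rw [ib, if_neg]
  exact fun h => hb (Finset.mem_powerset.mp hJ h)

theorem ib_lev {m : ι → ℝ} {b : ι} (hb : b ∉ B → m b = 0) :
    ∀ᵐ θ ∂PP, ib b (lev B m θ) = (Iio (m b)).indicator (1 : ℝ → ℝ) θ := by
  filter_upwards [ae_PP] with θ hθ
  by_cases hbB : b ∈ B
  · by_cases h : θ < m b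
    · rw [ib, if_pos (mem_lev.mpr ⟨hbB, h⟩), indicator_of_mem (by exact h)]
      rfl
    · rw [ib, if_neg (fun h2 => h (mem_lev.mp h2).2), indicator_of_notMem (by exact h)]
  · rw [ib, if_neg (fun h2 => hbB (mem_lev.mp h2).1), hb hbB, indicator_of_notMem]
    exact fun h => absurd hθ.1 (not_lt.mpr (le_of_lt h))

/-- `∑_{J ∋ b} lf_J = m_b`. -/
theorem sum_ib {m : ι → ℝ} {b : ι} (hb : b ∉ B → m b = 0) (h0 : 0 ≤ m b) (h1 : m b ≤ 1) :
    ∑ J ∈ B.powerset, ib b J * lf B J m = m b := by
  rw [sum_lf, integral_congr_ae (ib_lev hb), int_step h0 h1]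

/-- `∑_J |1[b ∈ J] - 1[b' ∈ J]| lf_J = |m_b - m_b'|`. -/
theorem sum_abs_ib {m : ι → ℝ} {b b' : ι} (hb : b ∉ B → m b = 0) (hb' : b' ∉ B → m b' = 0)
    (h0 : 0 ≤ m b) (h1 : m b ≤ 1) (h0' : 0 ≤ m b') (h1' : m b' ≤ 1) :
    ∑ J ∈ B.powerset, |ib b J - ib b' J| * lf B J m = |m b - m b'| := by
  rw [sum_lf (fun J => |ib b J - ib b' J|)]
  wlog hle : m b' ≤ m b generalizing b b'
  · rw [abs_sub_comm, ← this hb' hb h0' h1' h0 h1 (not_le.mp hle).le]
    refine integral_congr_ae (ae_of_all _ fun θ => ?_)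
    exact abs_sub_comm _ _
  have h2 : ∀ᵐ θ ∂PP, |ib b (lev B m θ) - ib b' (lev B m θ)| =
      (Iio (m b)).indicator (1 : ℝ → ℝ) θ - (Iio (m b')).indicator (1 : ℝ → ℝ) θ := by
    filter_upwards [ib_lev hb, ib_lev hb'] with θ h3 h4
    rw [h3, h4, abs_of_nonneg]
    rw [sub_nonneg]
    exact indicator_le_indicator_of_subset (Iio_subset_Iio hle) (fun _ => zero_le_one) θ
  rw [integral_congr_ae h2, integral_sub (integrable_step _) (integrable_step _),
    int_step h0 h1, int_step h0' h1', abs_of_nonneg (by linarith)]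

/-- Lipschitz bound. -/
theorem lf_lip (J : Finset ι) {m m' : ι → ℝ} (h0 : ∀ b, 0 ≤ m b) (h1 : ∀ b, m b ≤ 1)
    (h0' : ∀ b, 0 ≤ m' b) (h1' : ∀ b, m' b ≤ 1) :
    |lf B J m - lf B J m'| ≤ ∑ b ∈ B, |m b - m' b| := by
  classical
  have key : ∀ m m' : ι → ℝ, (∀ b, 0 ≤ m b) → (∀ b, m b ≤ 1) → (∀ b, 0 ≤ m' b) →
      (∀ b, m' b ≤ 1) → lf B J m - lf B J m' ≤ ∑ b ∈ B, |m b - m' b| := by
    intro m m' h0 h1 h0' h1'
    have e1 : lf B J m = ∫ θ, ({θ | lev B m θ = J}.indicator 1 θ : ℝ) ∂PP :=
      (integral_indicator_one (meas_lev m J)).symm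
    have e2 : lf B J m' = ∫ θ, ({θ | lev B m' θ = J}.indicator 1 θ : ℝ) ∂PP :=
      (integral_indicator_one (meas_lev m' J)).symm
    have i1 : Integrable (fun θ => ({θ | lev B m θ = J}.indicator 1 θ : ℝ)) PP :=
      (integrable_const (1 : ℝ)).indicator (meas_lev m J)
    have i2 : Integrable (fun θ => ({θ | lev B m' θ = J}.indicator 1 θ : ℝ)) PP :=
      (integrable_const (1 : ℝ)).indicator (meas_lev m' J)
    have i3 : ∀ b, Integrable (fun θ => |(Iio (m b)).indicator (1 : ℝ → ℝ) θ -
        (Iio (m' b)).indicator (1 : ℝ → ℝ) θ|) PP := fun b =>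
      ((integrable_step _).sub (integrable_step _)).abs
    have e3 : ∀ b, ∫ θ, |(Iio (m b)).indicator (1 : ℝ → ℝ) θ -
        (Iio (m' b)).indicator (1 : ℝ → ℝ) θ| ∂PP = |m b - m' b| := by
      intro b
      have aux : ∀ x y : ℝ, 0 ≤ x → x ≤ 1 → 0 ≤ y → y ≤ 1 → y ≤ x →
          ∫ θ, |(Iio x).indicator (1 : ℝ → ℝ) θ - (Iio y).indicator (1 : ℝ → ℝ) θ| ∂PP =
            |x - y| := by
        intro x y hx hx1 hy hy1 hyx
        have h2 : ∀ θ, |(Iio x).indicator (1 : ℝ → ℝ) θ - (Iio y).indicator (1 : ℝ → ℝ) θ| =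
            (Iio x).indicator (1 : ℝ → ℝ) θ - (Iio y).indicator (1 : ℝ → ℝ) θ := by
          intro θ
          rw [abs_of_nonneg]
          rw [sub_nonneg]
          exact indicator_le_indicator_of_subset (Iio_subset_Iio hyx) (fun _ => zero_le_one) θ
        rw [integral_congr_ae (ae_of_all _ h2), integral_sub (integrable_step _)
          (integrable_step _), int_step hx hx1, int_step hy hy1, abs_of_nonneg (by linarith)]
      rcases le_total (m' b) (m b) with h | h
      · exact aux _ _ (h0 b) (h1 b) (h0' b) (h1' b) h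
      · have h3 := aux _ _ (h0' b) (h1' b) (h0 b) (h1 b) h
        rw [abs_sub_comm, ← h3]
        refine integral_congr_ae (ae_of_all _ fun θ => ?_)
        exact abs_sub_comm _ _
    rw [e1, e2, ← integral_sub i1 i2]
    calc _ ≤ ∫ θ, ∑ b ∈ B, |(Iio (m b)).indicator (1 : ℝ → ℝ) θ -
        (Iio (m' b)).indicator (1 : ℝ → ℝ) θ| ∂PP := by
          refine integral_mono (i1.sub i2) (integrable_finsetSum _ fun b _ => i3 b) fun θ => ?_
          change ({θ | lev B m θ = J}.indicator (1 : ℝ → ℝ) θ : ℝ) -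
            {θ | lev B m' θ = J}.indicator (1 : ℝ → ℝ) θ ≤ ∑ b ∈ B,
              |(Iio (m b)).indicator (1 : ℝ → ℝ) θ - (Iio (m' b)).indicator (1 : ℝ → ℝ) θ|
          have hs : 0 ≤ ∑ b ∈ B, |(Iio (m b)).indicator (1 : ℝ → ℝ) θ -
              (Iio (m' b)).indicator (1 : ℝ → ℝ) θ| := Finset.sum_nonneg fun b _ => abs_nonneg _
          by_cases hJ : lev B m θ = J
          · by_cases hJ' : lev B m' θ = J
            · rw [indicator_of_mem (by exact hJ), indicator_of_mem (by exact hJ')]
              simpa using hs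
            · rw [indicator_of_mem (by exact hJ), indicator_of_notMem (by exact hJ')]
              have hex : ∃ b ∈ B, ¬ (θ < m b ↔ θ < m' b) := by
                by_contra hcon
                push Not at hcon
                apply hJ'
                rw [← hJ]
                ext b
                rw [mem_lev, mem_lev]
                constructor
                · rintro ⟨h2, h3⟩
                  exact ⟨h2, ((hcon b h2).mpr h3)⟩
                · rintro ⟨h2, h3⟩
                  exact ⟨h2, ((hcon b h2).mp h3)⟩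
              obtain ⟨b, hb, hne⟩ := hex
              have h4 : (1 : ℝ) ≤ |(Iio (m b)).indicator (1 : ℝ → ℝ) θ -
                  (Iio (m' b)).indicator (1 : ℝ → ℝ) θ| := by
                by_cases h5 : θ < m b
                · by_cases h6 : θ < m' b
                  · exact absurd (iff_of_true h5 h6) hne
                  · rw [indicator_of_mem (by exact h5), indicator_of_notMem (by exact h6)]
                    simp
                · by_cases h6 : θ < m' b
                  · rw [indicator_of_notMem (by exact h5), indicator_of_mem (by exact h6)]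
                    simp
                  · exact absurd (iff_of_false h5 h6) hne
              have h7 := Finset.single_le_sum (f := fun b => |(Iio (m b)).indicator (1 : ℝ → ℝ) θ -
                  (Iio (m' b)).indicator (1 : ℝ → ℝ) θ|) (fun b _ => abs_nonneg _) hb
              have h8 : (1 : ℝ → ℝ) θ = 1 := rfl
              rw [h8]
              beta_reduce at h7
              linarith
          · rw [indicator_of_notMem (by exact hJ)]
            have h9 : 0 ≤ {θ | lev B m' θ = J}.indicator (1 : ℝ → ℝ) θ :=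
              indicator_nonneg (fun _ _ => zero_le_one) θ
            linarith
      _ = _ := by
          rw [integral_finsetSum _ fun b _ => i3 b]
          exact Finset.sum_congr rfl fun b _ => e3 b
  rw [abs_le]
  constructor
  · have := key m' m h0' h1' h0 h1
    have h2 : ∑ b ∈ B, |m' b - m b| = ∑ b ∈ B, |m b - m' b| :=
      Finset.sum_congr rfl fun b _ => abs_sub_comm _ _
    rw [h2] at this
    linarith
  · exact key m m' h0 h1 h0' h1'

end Vale.Agent.P092.H538
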