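import Vale.Agent.P092.H538.Step

/-!
P092 (helper538): from the one step lemma to a right invariant mean on `Λ`.
-/

set_option linter.all false

open scoped InnerProductSpace
open Filter Topology ContinuousLinearMap

namespace Vale.Agent.P092.H538

open Vale.Agent.P092.H160 Vale.Agent.P092.H553 Vale.Agent.P092.H200

section gen

variable {H : Type} [NormedAddCommGroup H] [InnerProductSpace ℂ H] [CompleteSpace H]

theorem re_mono_of_le {S T : H →L[ℂ] H} (h : ∀ ξ, (⟪ξ, S ξ⟫_ℂ).re ≤ (⟪ξ, T ξ⟫_ℂ).re)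
    (hS : 0 ≤ S) (hT : 0 ≤ T) : S ≤ T := by
  rw [← sub_nonneg]
  refine H108.nonneg_of_inner ((IsSelfAdjoint.of_nonneg hT).sub (IsSelfAdjoint.of_nonneg hS))
    fun ξ => ?_
  rw [sub_apply, inner_sub_right, Complex.sub_re]
  linarith [h ξ]

theorem im_zero_of_nonneg {T : H →L[ℂ] H} (hT : 0 ≤ T) (ξ : H) : (⟪ξ, T ξ⟫_ℂ).im = 0 := by
  have h1 := (IsSelfAdjoint.of_nonneg hT).star_eq
  have h2 : ⟪T ξ, ξ⟫_ℂ = ⟪ξ, T ξ⟫_ℂ := by
    rw [← H108.star_apply_inner, h1]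
  rw [← inner_conj_symm] at h2
  exact Complex.conj_eq_iff_im.mp h2

theorem ext_re {S T : H →L[ℂ] H} (hS : 0 ≤ S) (hT : 0 ≤ T)
    (h : ∀ ξ, (⟪ξ, S ξ⟫_ℂ).re = (⟪ξ, T ξ⟫_ℂ).re) : S = T :=
  le_antisymm (re_mono_of_le (fun ξ => (h ξ).le) hS hT)
    (re_mono_of_le (fun ξ => (h ξ).ge) hT hS)

end gen

section

variable {Γ Λ : Type} [Group Γ] [DecidableEq Γ] [Countable Γ] [Group Λ]
  {V : Λ →* (Ell2 Γ →L[ℂ] Ell2 Γ)} {U : Ultrafilter ℕ} {z : ℕ → Λ} {χ : ℕ → Γ → ℝ}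

/-- The operators in the limit. -/
theorem exists_T (hV : Frame V) (hχ : CutOff U χ) (K : Subgroup Λ)
    (hz : ∀ k, ∀ v ∈ K, z k * v = v * z k)
    (hA : ∀ (S : Finset Γ) (ε : ℝ), 0 < ε → ∃ (B : Finset Γ) (μ : Γ → Γ → ℝ), Amen U χ S ε B μ) :
    ∃ T : Set Λ → (Ell2 Γ →L[ℂ] Ell2 Γ), (∀ A, 0 ≤ T A) ∧
      (∀ A A', Disjoint A A' → T (A ∪ A') = T A + T A') ∧
      (∀ ξ, th U V z χ ξ ≤ (⟪ξ, T Set.univ ξ⟫_ℂ).re) ∧
      (∀ v ∈ K, ∀ A, T {w | w * v ∈ A} * Wr V v = Wr V v * T A) ∧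
      (∀ A, Cmm lamH (T A)) := by
  obtain ⟨f, hf⟩ := exists_surjective_nat Γ
  have hex : ∀ n : ℕ, ∃ T : Set Λ → (Ell2 Γ →L[ℂ] Ell2 Γ), (∀ A, 0 ≤ T A) ∧
      (∀ A A', Disjoint A A' → T (A ∪ A') = T A + T A') ∧
      (∀ ξ, (⟪ξ, T Set.univ ξ⟫_ℂ).re ≤ ‖ξ‖ ^ 2) ∧
      (∀ ξ, (1 - 1 / ((n : ℝ) + 1)) * th U V z χ ξ ≤ (⟪ξ, T Set.univ ξ⟫_ℂ).re) ∧
      (∀ v ∈ K, ∀ A, T {w | w * v ∈ A} * Wr V v = Wr V v * T A) ∧
      (∀ s ∈ (Finset.range n).image f, ∀ A ξ,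
        |(⟪lam s ξ, T A (lam s ξ)⟫_ℂ).re - (⟪ξ, T A ξ⟫_ℂ).re| ≤ 1 / ((n : ℝ) + 1) * ‖ξ‖ ^ 2) := by
    intro n
    obtain ⟨B, μ, hμ⟩ := hA ((Finset.range n).image f) (1 / ((n : ℝ) + 1)) (by positivity)
    exact step hV hχ hμ (by positivity) K hz
  choose T hT0 hTadd hTle hTge hTcov hTlam using hex
  have hle : ∀ n A ξ, (⟪ξ, T n A ξ⟫_ℂ).re ≤ ‖ξ‖ ^ 2 := by
    intro n A ξ
    have h1 := hTadd n A Aᶜ disjoint_compl_right
    rw [Set.union_compl_self] at h1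
    have h2 := hTle n ξ
    rw [h1, add_apply, inner_add_right, Complex.add_re] at h2
    have h3 := H108.inner_nonneg_of_nonneg (hT0 n Aᶜ) ξ
    linarith
  have hnorm : ∀ n A, ‖T n A‖ ≤ 1 := by
    intro n A
    refine H108.norm_le_of (hT0 n A) (re_mono_of_le (fun ξ => ?_) (hT0 n A) zero_le_one)
    have h1 : (⟪ξ, (1 : Ell2 Γ →L[ℂ] Ell2 Γ) ξ⟫_ℂ).re = ‖ξ‖ ^ 2 := by
      rw [one_apply_eq_self, inner_self_eq_norm_sq_to_K]
      norm_cast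
    rw [h1]
    exact hle n A ξ
  obtain ⟨W, hW⟩ : ∃ W : Ultrafilter ℕ, (W : Filter ℕ) ≤ atTop :=
    ⟨hyperfilter ℕ, Nat.hyperfilter_le_atTop⟩
  have hspec : ∀ A (ξ η : Ell2 Γ), Tendsto (fun n => ⟪ξ, T n A η⟫_ℂ) W
      (𝓝 ⟪ξ, wl W (fun n => T n A) η⟫_ℂ) := fun A ξ η =>
    wl_spec W (fun n => hnorm n A) ξ η
  have hre : ∀ A (ξ : Ell2 Γ), Tendsto (fun n => (⟪ξ, T n A ξ⟫_ℂ).re) W
      (𝓝 (⟪ξ, wl W (fun n => T n A) ξ⟫_ℂ).re) := fun A ξ =>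
    (Complex.continuous_re.tendsto _).comp (hspec A ξ ξ)
  have hlim : Tendsto (fun n : ℕ => 1 / ((n : ℝ) + 1)) W (𝓝 0) :=
    (tendsto_one_div_add_atTop_nhds_zero_nat (𝕜 := ℝ)).mono_left hW
  have hpos : ∀ A, 0 ≤ wl W (fun n => T n A) := fun A =>
    H108.nonneg_of_tendsto (l := (W : Filter ℕ)) (Eventually.of_forall fun n => hT0 n A) (hspec A)
  refine ⟨fun A => wl W (fun n => T n A), hpos, ?_, ?_, ?_, ?_⟩
  · intro A A' h
    refine op_ext_inner fun ξ η => ?_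
    refine tendsto_nhds_unique (hspec (A ∪ A') ξ η) ?_
    rw [add_apply, inner_add_right]
    refine ((hspec A ξ η).add (hspec A' ξ η)).congr fun n => ?_
    rw [hTadd n A A' h, add_apply, inner_add_right]
  · intro ξ
    have h1 : Tendsto (fun n : ℕ => (1 - 1 / ((n : ℝ) + 1)) * th U V z χ ξ) W
        (𝓝 ((1 - 0) * th U V z χ ξ)) := (hlim.const_sub 1).mul_const _
    rw [sub_zero, one_mul] at h1
    exact le_of_tendsto_of_tendsto h1 (hre Set.univ ξ) (Eventually.of_forall fun n => hTge n ξ)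
  · intro v hv A
    refine op_ext_inner fun ξ η => ?_
    have hR : ⟪ξ, (Wr V v * wl W fun n => T n A) η⟫_ℂ =
        ⟪Wr V v⁻¹ ξ, wl W (fun n => T n A) η⟫_ℂ := (regRep_W hV).inner_right v _ _
    rw [hR, mul_ap]
    refine tendsto_nhds_unique (hspec {w | w * v ∈ A} ξ (Wr V v η)) ?_
    refine (hspec A (Wr V v⁻¹ ξ) η).congr fun n => ?_
    rw [← (regRep_W hV).inner_right v, ← mul_ap, ← mul_ap, hTcov n v hv A]
  · intro A s
    have hs : ∀ ξ, (⟪lam s ξ, wl W (fun n => T n A) (lam s ξ)⟫_ℂ).re =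
        (⟪ξ, wl W (fun n => T n A) ξ⟫_ℂ).re := by
      intro ξ
      obtain ⟨n0, hn0⟩ := hf s
      have h1 := (hre A (lam s ξ)).sub (hre A ξ)
      have h2 : Tendsto (fun n => (⟪lam s ξ, T n A (lam s ξ)⟫_ℂ).re - (⟪ξ, T n A ξ⟫_ℂ).re) W
          (𝓝 0) := by
        rw [tendsto_zero_iff_norm_tendsto_zero]
        have h3 := hlim.mul_const (‖ξ‖ ^ 2)
        rw [zero_mul] at h3
        refine squeeze_zero' (Eventually.of_forall fun n => norm_nonneg _) ?_ h3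
        have h4 : ∀ᶠ n in (W : Filter ℕ), n0 < n := hW (eventually_gt_atTop n0)
        filter_upwards [h4] with n hn
        rw [Real.norm_eq_abs]
        exact hTlam n s (Finset.mem_image.mpr ⟨n0, Finset.mem_range.mpr hn, hn0⟩) A ξ
      have h5 := tendsto_nhds_unique h1 h2
      linarith
    have h6 : star (lam s) * wl W (fun n => T n A) * lam s = wl W (fun n => T n A) := by
      refine ext_re (star_left_conjugate_nonneg (hpos A) _) (hpos A) fun ξ => ?_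
      rw [mul_ap, mul_ap, star_eq_adjoint, adjoint_inner_right]
      exact hs ξ
    have h7 : lam s * star (lam s) = (1 : Ell2 Γ →L[ℂ] Ell2 Γ) := by
      rw [star_eq_adjoint, adjoint_lam, ← lam_mul, mul_inv_cancel, lam_one]
    have h8 := congrArg (fun X => lam s * X) h6
    rw [← mul_assoc, ← mul_assoc, h7, one_mul] at h8
    exact h8

/-- A right `K`-invariant mean on `Λ`. -/
theorem mean_of_amen (hV : Frame V) (hχ : CutOff U χ) (K : Subgroup Λ)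
    (hz : ∀ k, ∀ v ∈ K, z k * v = v * z k)
    (hA : ∀ (S : Finset Γ) (ε : ℝ), 0 < ε → ∃ (B : Finset Γ) (μ : Γ → Γ → ℝ), Amen U χ S ε B μ)
    (hpos : 0 < th U V z χ (dl 1)) : ∃ m, IsInvMean K m := by
  obtain ⟨T, hT0, hTadd, hTge, hTcov, hTlam⟩ := exists_T hV hχ K hz hA
  obtain ⟨c, hc⟩ : ∃ c, c = (⟪dl 1, T Set.univ (dl 1)⟫_ℂ).re := ⟨_, rfl⟩
  have hc0 : 0 < c := by rw [hc]; exact hpos.trans_le (hTge _)
  refine ⟨fun A => (⟪dl 1, T A (dl 1)⟫_ℂ).re / c, ?_, ?_, ?_, ?_⟩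
  · intro A
    exact div_nonneg (H108.inner_nonneg_of_nonneg (hT0 A) _) hc0.le
  · rw [← hc]
    exact div_self hc0.ne'
  · intro A A' h
    rw [hTadd A A' h, add_apply, inner_add_right, Complex.add_re, add_div]
  · intro A v hv
    have hcg : ∀ g s : Γ, lamH g * rhoH s = rhoH s * lamH g := fun g s => (rho_lam s g).symm
    have h1 : V v * T A = T A * V v :=
      RegRep.commute regRep_lam regRep_rho hcg (cmm_rho_V hV v) (hTlam A)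
    have h2 : (dl 1 : Ell2 Γ) = Wr V v (Wr V v⁻¹ (dl 1)) := ((regRep_W hV).apply_inv v _).symm
    have h3 : T {w | w * v ∈ A} (dl 1) = Wr V v (T A (Wr V v⁻¹ (dl 1))) := by
      conv_lhs => rw [h2]
      rw [← mul_ap (T {w | w * v ∈ A}), hTcov v hv A, mul_ap]
    have h4 : ⟪(dl 1 : Ell2 Γ), T {w | w * v ∈ A} (dl 1)⟫_ℂ = ⟪(dl 1 : Ell2 Γ), T A (dl 1)⟫_ℂ := by
      rw [h3, (regRep_W hV).inner_right, Wr_xi hV, inv_inv, ← mul_ap (T A), ← h1, mul_ap,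
        hV.reg.inner_map]
    rw [h4]

end

end Vale.Agent.P092.H538
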