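import Vale.Agent.P092.H538.S6
import Vale.Agent.P092.H432.PiA
import Vale.Agent.P092.H658.T2
import Vale.Agent.P092.H428.Cutoff

/-!
P092 (helper538), block [S6] of helper432's plan for all amplifications: the invariant mean and
the smallness of the regular part for elements of the centralizer of `K`, row model.
-/

set_option linter.all false

open scoped InnerProductSpace
open Filter Topology ContinuousLinearMap

namespace Vale.Agent.P092.H538

open Vale.Agent.P092.H160 Vale.Agent.P092.H553 Vale.Agent.P092.H200 Vale.Agent.P092.H432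

section row

variable {Γ Λ ι : Type} [Group Γ] [Group Λ] [Fintype ι] [DecidableEq ι] {t : ℝ}
  {R : Λ → (Ell2 (Γ × ι) →L[ℂ] Ell2 (Γ × ι))}
  {E : Set Λ → (Ell2 (Γ × ι) →L[ℂ] Ell2 (Γ × ι))}
  {U : Ultrafilter ℕ} {z : ℕ → Λ} {χ : ℕ → Γ → ℝ}

/-- A right `K`-invariant mean on `Λ`, row model. -/
theorem mean_of_amenA [DecidableEq Γ] [Countable Γ] (hR : ARep t R) (hE : EFam R E)
    (hχ : CutOff U χ) (K : Subgroup Λ) (hz : ∀ k, ∀ v ∈ K, z k * v = v * z k)
    (hA : ∀ (S : Finset Γ) (ε : ℝ), 0 < ε → ∃ (B : Finset Γ) (μ : Γ → Γ → ℝ), Amen U χ S ε B μ)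
    (hpos : 0 < ∑ i : ι, tA U R z χ (ep i)) : ∃ m, IsInvMean K m := by
  obtain ⟨T, hT0, hTadd, hTge, hTcov, hTra⟩ := exists_TA hR hE hχ K
    (fun v hv F hF hs => H432.pa_comm hR hF v (fun k => hz k v hv) hs) hA
  have htr : ∀ A, (trA (T A)).re = ∑ i : ι, (⟪(ep i : Ell2 (Γ × ι)), T A (ep i)⟫_ℂ).re := by
    intro A
    rw [trA, Complex.re_sum]
  obtain ⟨c, hc⟩ : ∃ c, c = (trA (T Set.univ)).re := ⟨_, rfl⟩
  have hc0 : 0 < c := by
    rw [hc, htr]
    exact hpos.trans_le (Finset.sum_le_sum fun i _ => hTge (ep i))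
  refine ⟨fun A => (trA (T A)).re / c, ?_, ?_, ?_, ?_⟩
  · intro A
    rw [htr]
    exact div_nonneg (Finset.sum_nonneg fun i _ => H108.inner_nonneg_of_nonneg (hT0 A) _) hc0.le
  · rw [← hc]
    exact div_self hc0.ne'
  · intro A A' h
    rw [hTadd A A' h, trA_add, Complex.add_re, add_div]
  · intro A v hv
    have h1 := hTcov 1 K.one_mem A
    have h1' : {w : Λ | w * 1 ∈ A} = A := by ext w; simp
    rw [h1', inv_one] at h1
    have h2 : R 1 * T A = T A := by
      rw [h1, ← mul_assoc, ← mul_assoc, hR.one_mul_one]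
    rw [hTcov v hv A, trA_comm ((hR.ra v).mul (hTra A)) (hR.ra v⁻¹), ← mul_assoc, hR.inv_mul, h2]

end row

/-- Block [S6]: elements of the centralizer of `K` have uniformly little mass far out in the
regular region, if `K` is not amenable (row model). -/
theorem propA_row (Γ : Subgroup G3) {Λ ι : Type} [Group Λ] [Fintype ι] [DecidableEq ι] {t : ℝ}
    {R : Λ → (Ell2 (Γ × ι) →L[ℂ] Ell2 (Γ × ι))} (hR : ARep t R)
    {E : Set Λ → (Ell2 (Γ × ι) →L[ℂ] Ell2 (Γ × ι))} (hE : EFam R E)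
    (K : Subgroup Λ) (hK : ¬ ∃ m, H200.IsInvMean K m) {ε : ℝ} (hε : 0 < ε) :
    ∃ r : ℝ, ∀ w : Λ, (∀ v ∈ K, w * v = v * w) →
      Real.sqrt (∑ i : ι, ‖mp ι (ind fun g : Γ => Reg r (g : G3)) (R w (ep i))‖ ^ 2) ≤ ε := by
  classical
  by_contra hcon
  push Not at hcon
  choose w hw1 hw2 using fun k : ℕ => hcon (k : ℝ)
  obtain ⟨χ, hχ1, hχ2, hχ3, hχ4⟩ := H428.cutoff
  obtain ⟨U, hU⟩ : ∃ U : Ultrafilter ℕ, (U : Filter ℕ) ≤ atTop :=
    ⟨hyperfilter ℕ, Nat.hyperfilter_le_atTop⟩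
  have hcut : CutOff (Γ := Γ) U (fun k g => χ k (g : G3)) := by
    refine ⟨fun k g => (hχ1 k _).1, fun k g => (hχ1 k _).2, fun s δ hδ => ?_, fun t δ hδ => ?_⟩
    · filter_upwards [hU (hχ4 (s : G3) 1 δ hδ)] with k hk g
      have := hk (g : G3)
      rw [mul_one] at this
      exact this
    · filter_upwards [hU (hχ4 1 (t : G3) δ hδ)] with k hk g
      have := hk (g : G3)
      rw [one_mul] at this
      exact this
  haveI : Countable (Matrix (Fin 3) (Fin 3) ℤ) := inferInstanceAs (Countable (Fin 3 → Fin 3 → ℤ))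
  haveI : Countable G3 := Subtype.countable
  refine hK (mean_of_amenA (z := w) hR hE hcut K (fun k v hv => hw1 k v hv)
    (fun S ε' hε' => ?_) ?_)
  · obtain ⟨B, μ, R', h1, h2, h3, h4, h5, h6⟩ := H658.amen_fun Γ S hε'
    refine ⟨B, μ, h1, h2, h3, h4, fun s hs => ?_, fun b t δ hδ => ?_⟩
    · filter_upwards [hU (hχ3 R')] with k hk g hg
      exact h5 s hs g (hk _ hg)
    · obtain ⟨R'', hR''⟩ := h6 b t δ hδ
      filter_upwards [hU (hχ3 R'')] with k hk g hg
      exact hR'' g (hk _ hg)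
  · have hlow : ε ^ 2 ≤ ∑ i : ι, tA U R w (fun k (g : Γ) => χ k (g : G3)) (ep i) := by
      refine ge_of_tendsto (tendsto_finsetSum Finset.univ fun i _ =>
        tA_spec (z := w) (U := U) hR (C := 1) (fun k g => hcut.abs_le k g) (ep i))
        (Eventually.of_forall fun k => ?_)
      have h7 := (hw2 k).le
      have h0 : 0 ≤ ∑ i : ι, ‖mp ι (ind fun g : Γ => Reg (k : ℝ) (g : G3)) (R (w k) (ep i))‖ ^ 2 :=
        Finset.sum_nonneg fun i _ => by positivity
      have h8 : ε ^ 2 ≤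
          ∑ i : ι, ‖mp ι (ind fun g : Γ => Reg (k : ℝ) (g : G3)) (R (w k) (ep i))‖ ^ 2 := by
        rw [← Real.sq_sqrt h0]
        gcongr
      refine h8.trans (Finset.sum_le_sum fun i _ => ?_)
      have h9 : ∀ x : Γ × ι, |(fun x : Γ × ι => ind (fun g : Γ => Reg (k : ℝ) (g : G3)) x.1) x| ≤ 1 :=
        fun x => abs_ind_le _ _
      rw [mp, norm_mo_sq h9]
      refine Summable.tsum_le_tsum (fun x => ?_) ?_
        (summable_mo (F := fun x : Γ × ι => χ k (x.1 : G3)) (fun x => hcut.abs_le k x.1) _)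
      · refine mul_le_mul_of_nonneg_right ?_ (by positivity)
        by_cases hr : Reg (k : ℝ) (x.1 : G3)
        · rw [ind_pos (P := fun g : Γ => Reg (k : ℝ) (g : G3)) hr, hχ2 k _ hr]
          norm_num
        · rw [ind_neg (P := fun g : Γ => Reg (k : ℝ) (g : G3)) hr]
          simpa using (hχ1 k (x.1 : G3)).1
      · refine (summable_sq (mo (fun x : Γ × ι => ind (fun g : Γ => Reg (k : ℝ) (g : G3)) x.1)
          (R (w k) (ep i)))).congr fun x => ?_
        rw [mo_apply h9, norm_mul, mul_pow, Complex.norm_real, Real.norm_eq_abs, sq_abs]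
    exact lt_of_lt_of_le (by positivity) hlow

end Vale.Agent.P092.H538
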