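import Vale.Agent.P092.H538.Mean
import Vale.Agent.P092.H658.T2
import Vale.Agent.P092.H428.Cutoff

/-!
P092 (helper538): block [A] of helper553's plan: elements of the centralizer of `K` have
uniformly little mass far out in the regular region, if `K` is not amenable.
-/

set_option linter.all false

open scoped InnerProductSpace
open Filter Topology ContinuousLinearMap

namespace Vale.Agent.P092.H538

open Vale.Agent.P092.H160 Vale.Agent.P092.H553 Vale.Agent.P092.H200

/-- Block [A]. -/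
theorem propA (Γ : Subgroup G3) {Λ : Type} [Group Λ] {V : Λ →* (Ell2 Γ →L[ℂ] Ell2 Γ)}
    (hV : Frame V) (K : Subgroup Λ) (hK : ¬ ∃ m, H200.IsInvMean K m) {ε : ℝ} (hε : 0 < ε) :
    ∃ R : ℝ, ∀ w : Λ, (∀ v ∈ K, w * v = v * w) →
      ‖mo (ind fun g : Γ => Reg R (g : G3)) (V w (dl 1))‖ ≤ ε := by
  classical
  by_contra hcon
  push Not at hcon
  choose w hw1 hw2 using fun k : ℕ => hcon (k : ℝ)
  obtain ⟨χ, hχ1, hχ2, hχ3, hχ4⟩ := H428.cutoff
  obtain ⟨U, hU⟩ : ∃ U : Ultrafilter ℕ, (U : Filter ℕ) ≤ atTop :=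
    ⟨hyperfilter ℕ, Nat.hyperfilter_le_atTop⟩
  have hcut : CutOff (Γ := Γ) U (fun k g => χ k (g : G3)) := by
    refine ⟨fun k g => (hχ1 k _).1, fun k g => (hχ1 k _).2, fun s δ hδ => ?_, fun t δ hδ => ?_⟩
    · filter_upwards [hU (hχ4 (s : G3) 1 δ hδ)] with k hk g
      have := hk (g : G3)
      rw [mul_one] at this
      exact this
    · filter_upwards [hU (hχ4 1 (t : G3) δ hδ)] with k hk g
      have := hk (g : G3)
      rw [one_mul] at this
      exact this
  haveI : Countable (Matrix (Fin 3) (Fin 3) ℤ) := inferInstanceAs (Countable (Fin 3 → Fin 3 → ℤ))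
  haveI : Countable G3 := Subtype.countable
  refine hK (mean_of_amen (z := fun k => (w k)⁻¹) hV hcut K (fun k v hv => ?_)
    (fun S ε' hε' => ?_) ?_)
  · have := hw1 k v hv
    rw [inv_mul_eq_iff_eq_mul, ← mul_assoc, this, mul_inv_cancel_right]
  · obtain ⟨B, μ, R, h1, h2, h3, h4, h5, h6⟩ := H658.amen_fun Γ S hε'
    refine ⟨B, μ, h1, h2, h3, h4, fun s hs => ?_, fun b t δ hδ => ?_⟩
    · filter_upwards [hU (hχ3 R)] with k hk g hg
      exact h5 s hs g (hk _ hg)
    · obtain ⟨R', hR'⟩ := h6 b t δ hδ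
      filter_upwards [hU (hχ3 R')] with k hk g hg
      exact hR' g (hk _ hg)
  · have hlow : ε ^ 2 ≤ th U V (fun k => (w k)⁻¹) (fun k (g : Γ) => χ k (g : G3)) (dl 1) := by
      refine ge_of_tendsto (th_spec hV (C := 1) (fun k g => hcut.abs_le k g) (dl 1))
        (Eventually.of_forall fun k => ?_)
      rw [Wr_xi hV, inv_inv]
      have h7 := (hw2 k).le
      have h8 : ε ^ 2 ≤ ‖mo (ind fun g : Γ => Reg (k : ℝ) (g : G3)) (V (w k) (dl 1))‖ ^ 2 := by
        gcongr
      refine h8.trans ?_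
      rw [norm_mo_sq (abs_ind_le _)]
      refine Summable.tsum_le_tsum (fun g => ?_) ?_ (summable_mo (fun g => hcut.abs_le k g) _)
      · refine mul_le_mul_of_nonneg_right ?_ (by positivity)
        by_cases hr : Reg (k : ℝ) (g : G3)
        · rw [ind_pos (P := fun g : Γ => Reg (k : ℝ) (g : G3)) hr, hχ2 k _ hr]
          norm_num
        · rw [ind_neg (P := fun g : Γ => Reg (k : ℝ) (g : G3)) hr]
          simpa using (hχ1 k (g : G3)).1
      · refine (summable_sq (mo (ind fun g : Γ => Reg (k : ℝ) (g : G3)) (V (w k) (dl 1)))).congr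
          fun g => ?_
        rw [mo_apply (abs_ind_le _), norm_mul, mul_pow, Complex.norm_real, Real.norm_eq_abs, sq_abs]
    exact lt_of_lt_of_le (by positivity) hlow

end Vale.Agent.P092.H538
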