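import Vale.Agent.P092.H538.Proj

/-!
P092 (helper538): one step of the proof of (A): from approximately equivariant functions to
operators `T A` on `ℓ²(Γ)` which almost commute with `λ(Γ)` and are covariant under `W_v`, `v ∈ K`.
-/

set_option linter.all false

open scoped InnerProductSpace
open Filter Topology ContinuousLinearMap

namespace Vale.Agent.P092.H538

open Vale.Agent.P092.H160 Vale.Agent.P092.H553

section

variable {Γ Λ : Type} [Group Γ] [Group Λ] {V : Λ →* (Ell2 Γ →L[ℂ] Ell2 Γ)}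
  {U : Ultrafilter ℕ} {z : ℕ → Λ} {F F' D : ℕ → Γ → ℝ} {C C' : ℝ}

/-- Uniformly small sequences of functions. -/
def Usm (U : Ultrafilter ℕ) (D : ℕ → Γ → ℝ) : Prop :=
  ∀ δ : ℝ, 0 < δ → ∀ᶠ k in U, ∀ g, |D k g| ≤ δ

/-- the quadratic form of `PiL` -/
noncomputable def th (U : Ultrafilter ℕ) (V : Λ →* (Ell2 Γ →L[ℂ] Ell2 Γ)) (z : ℕ → Λ)
    (F : ℕ → Γ → ℝ) (ξ : Ell2 Γ) : ℝ := (⟪ξ, PiL U V z F ξ⟫_ℂ).re

variable (hV : Frame V)

include hV

theorem small_of_usm (hD : Usm U D) : Small U V z D := by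
  intro ξ
  rw [Metric.tendsto_nhds]
  intro ε hε
  have h1 := hD (ε / (2 * (‖ξ‖ + 1))) (by positivity)
  filter_upwards [h1] with k hk
  rw [dist_zero_right, norm_norm]
  refine (norm_mo_le hk _).trans_lt ?_
  rw [norm_W hV, div_mul_eq_mul_div, div_lt_iff₀ (by positivity)]
  nlinarith [norm_nonneg ξ]

theorem th_spec (hF : ∀ k g, |F k g| ≤ C) (ξ : Ell2 Γ) :
    Tendsto (fun k => ∑' g, F k g * ‖Wr V (z k) ξ g‖ ^ 2) U (𝓝 (th U V z F ξ)) := by
  refine ((Complex.continuous_re.tendsto _).comp (pl_spec hV hF ξ ξ)).congr fun k => ?_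
  rw [Function.comp_apply, inner_mo (hF k), Complex.ofReal_re]

/-- eventual domination up to small errors -/
theorem th_mono (hF : ∀ k g, |F k g| ≤ C) (hF' : ∀ k g, |F' k g| ≤ C')
    (h : ∀ δ : ℝ, 0 < δ → ∀ᶠ k in U, ∀ g, F k g ≤ F' k g + δ) (ξ : Ell2 Γ) :
    th U V z F ξ ≤ th U V z F' ξ := by
  have key : ∀ δ : ℝ, 0 < δ → th U V z F ξ ≤ th U V z F' ξ + δ * ‖ξ‖ ^ 2 := by
    intro δ hδ
    refine le_of_tendsto_of_tendsto (th_spec hV hF ξ)
      ((th_spec (z := z) (U := U) hV hF' ξ).add_const (δ * ‖ξ‖ ^ 2)) ?_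
    filter_upwards [h δ hδ] with k hk
    have h1 : δ * ‖ξ‖ ^ 2 = ∑' g, δ * ‖Wr V (z k) ξ g‖ ^ 2 := by
      rw [tsum_mul_left, ← norm_sq, norm_W hV]
    have hs := summable_mo (hF k) (Wr V (z k) ξ)
    have hs' := summable_mo (hF' k) (Wr V (z k) ξ)
    have hs2 := (summable_sq (Wr V (z k) ξ)).mul_left δ
    rw [h1, ← hs'.tsum_add hs2]
    refine hs.tsum_le_tsum (fun g => ?_) (hs'.add hs2)
    rw [← add_mul]
    exact mul_le_mul_of_nonneg_right (hk g) (by positivity)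
  refine le_of_forall_pos_le_add fun ε hε => ?_
  have h2 := key (ε / (‖ξ‖ ^ 2 + 1)) (by positivity)
  refine h2.trans ?_
  gcongr
  rw [div_mul_eq_mul_div, div_le_iff₀ (by positivity)]
  nlinarith [sq_nonneg ‖ξ‖]

theorem th_const (c : ℝ) (ξ : Ell2 Γ) : th U V z (fun _ _ => c) ξ = c * ‖ξ‖ ^ 2 := by
  refine tendsto_nhds_unique (th_spec (C := |c|) hV (fun k g => le_rfl) ξ) ?_
  refine tendsto_const_nhds.congr fun k => ?_
  rw [tsum_mul_left, ← norm_sq, norm_W hV]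

theorem th_le (hF : ∀ k g, |F k g| ≤ C) {c : ℝ}
    (h : ∀ δ : ℝ, 0 < δ → ∀ᶠ k in U, ∀ g, F k g ≤ c + δ) (ξ : Ell2 Γ) :
    th U V z F ξ ≤ c * ‖ξ‖ ^ 2 := by
  rw [← th_const hV (U := U) (z := z)]
  exact th_mono hV hF (C' := |c|) (fun k g => le_rfl) h ξ

theorem th_sum {ι : Type*} (s : Finset ι) (a : ι → ℝ) {G : ι → ℕ → Γ → ℝ} {E : ι → ℝ}
    (hG : ∀ j k g, |G j k g| ≤ E j) (ξ : Ell2 Γ) :
    th U V z (fun k g => ∑ j ∈ s, a j * G j k g) ξ = ∑ j ∈ s, a j * th U V z (G j) ξ := by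
  have hb : ∀ k g, |∑ j ∈ s, a j * G j k g| ≤ ∑ j ∈ s, |a j| * E j := by
    intro k g
    refine (Finset.abs_sum_le_sum_abs _ _).trans (Finset.sum_le_sum fun j _ => ?_)
    rw [abs_mul]
    have := hG j k g
    gcongr
  refine tendsto_nhds_unique (th_spec hV hb ξ) ?_
  refine (tendsto_finsetSum s fun j _ => (th_spec (z := z) (U := U) hV (hG j) ξ).const_mul
    (a j)).congr fun k => ?_
  have h1 : ∀ j, a j * ∑' g, G j k g * ‖Wr V (z k) ξ g‖ ^ 2 =
      ∑' g, a j * (G j k g * ‖Wr V (z k) ξ g‖ ^ 2) := fun j => tsum_mul_left.symm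
  simp only [h1]
  rw [← Summable.tsum_finsetSum (fun j _ => (summable_mo (hG j k) (Wr V (z k) ξ)).mul_left _)]
  refine tsum_congr fun g => ?_
  rw [Finset.sum_mul]
  exact Finset.sum_congr rfl fun j _ => by ring

theorem th_lam (hF : ∀ k g, |F k g| ≤ C) (b : Γ) (ξ : Ell2 Γ) :
    th U V z F (lam b⁻¹ ξ) = th U V z (fun k g => F k (b⁻¹ * g)) ξ := by
  have h0 : Small U V z (fun k g => F k (b⁻¹ * g) - F k (b⁻¹ * g)) := by
    refine small_of_usm hV fun δ hδ => Eventually.of_forall fun k g => ?_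
    rw [sub_self, abs_zero]
    exact hδ.le
  have h1 := pl_lam hV hF (F' := fun k g => F k (b⁻¹ * g)) (C' := C) (fun k g => hF k _) b h0
    (lam b⁻¹ ξ)
  have h2 : lam b (lam b⁻¹ ξ) = ξ := by
    rw [← mul_ap, ← lam_mul, mul_inv_cancel, lam_one]; rfl
  rw [h2] at h1
  rw [th, th, ← h1, ← adjoint_lam, adjoint_inner_left]

end

/-- Slowly varying cut-off functions. -/
structure CutOff {Γ : Type} [Group Γ] (U : Ultrafilter ℕ) (χ : ℕ → Γ → ℝ) : Prop where
  nonneg : ∀ k g, 0 ≤ χ k g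
  le_one : ∀ k g, χ k g ≤ 1
  left : ∀ s : Γ, Usm U (fun k g => χ k (s * g) - χ k g)
  right : ∀ t : Γ, Usm U (fun k g => χ k (g * t) - χ k g)

/-- Approximately equivariant functions. -/
structure Amen {Γ : Type} [Group Γ] [DecidableEq Γ] (U : Ultrafilter ℕ) (χ : ℕ → Γ → ℝ)
    (S : Finset Γ) (ε : ℝ) (B : Finset Γ) (μ : Γ → Γ → ℝ) : Prop where
  nonneg : ∀ b g, 0 ≤ μ b g
  off : ∀ b ∉ B, ∀ g, μ b g = 0
  sum_le : ∀ g, ∑ b ∈ B, μ b g ≤ 1
  sum_ge : ∀ g, 1 - ε ≤ ∑ b ∈ B, μ b g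
  left : ∀ s ∈ S, ∀ᶠ k in U, ∀ g, χ k g ≠ 0 →
    ∑ b ∈ B ∪ B.image (fun b => s⁻¹ * b), |μ (s * b) (s * g) - μ b g| ≤ ε
  right : ∀ b t : Γ, ∀ δ : ℝ, 0 < δ → ∀ᶠ k in U, ∀ g, χ k g ≠ 0 → |μ b (g * t) - μ b g| ≤ δ

section step

variable {Γ Λ : Type} [Group Γ] [DecidableEq Γ] [Group Λ] {V : Λ →* (Ell2 Γ →L[ℂ] Ell2 Γ)}
  {U : Ultrafilter ℕ} {z : ℕ → Λ} {χ : ℕ → Γ → ℝ} {S B : Finset Γ} {ε : ℝ} {μ : Γ → Γ → ℝ}

/-- the functions `φ_J` -/
noncomputable def phi (χ : ℕ → Γ → ℝ) (B : Finset Γ) (μ : Γ → Γ → ℝ) (J : Finset Γ) (k : ℕ)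
    (g : Γ) : ℝ := lf B J (fun b => μ b (b * g)) * χ k g

theorem Amen.le_one (hμ : Amen U χ S ε B μ) (b g : Γ) : μ b g ≤ 1 := by
  by_cases hb : b ∈ B
  · exact (Finset.single_le_sum (f := fun b => μ b g) (fun b _ => hμ.nonneg b g) hb).trans
      (hμ.sum_le g)
  · rw [hμ.off b hb]
    exact zero_le_one

theorem Amen.abs_sub_le (hμ : Amen U χ S ε B μ) (b g b' g' : Γ) : |μ b g - μ b' g'| ≤ 1 := by
  have h1 := hμ.le_one b g
  have h2 := hμ.le_one b' g'
  have h3 := hμ.nonneg b g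
  have h4 := hμ.nonneg b' g'
  rw [abs_le]
  constructor <;> linarith

theorem CutOff.abs_le (hχ : CutOff U χ) (k : ℕ) (g : Γ) : |χ k g| ≤ 1 := by
  rw [abs_of_nonneg (hχ.nonneg k g)]
  exact hχ.le_one k g

theorem phi_nonneg (hχ : CutOff U χ) (J : Finset Γ) (k : ℕ) (g : Γ) : 0 ≤ phi χ B μ J k g :=
  mul_nonneg (lf_nonneg _ _) (hχ.nonneg _ _)

theorem phi_abs (hχ : CutOff U χ) (J : Finset Γ) (k : ℕ) (g : Γ) : |phi χ B μ J k g| ≤ 1 := by
  rw [abs_of_nonneg (phi_nonneg hχ J k g)]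
  exact mul_le_one₀ (lf_le_one _ _) (hχ.nonneg _ _) (hχ.le_one _ _)

theorem sum_ib_phi (hμ : Amen U χ S ε B μ) (b : Γ) (k : ℕ) (g : Γ) :
    ∑ J ∈ B.powerset, ib b J * phi χ B μ J k g = μ b (b * g) * χ k g := by
  have h := sum_ib (B := B) (m := fun b => μ b (b * g)) (b := b) (fun hb => hμ.off b hb _)
    (hμ.nonneg _ _) (hμ.le_one _ _)
  rw [← h, Finset.sum_mul]
  exact Finset.sum_congr rfl fun J _ => by rw [phi]; ring

theorem sum_abs_ib_phi (hμ : Amen U χ S ε B μ) (b b' : Γ) (k : ℕ) (g : Γ) :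
    ∑ J ∈ B.powerset, |ib b J - ib b' J| * phi χ B μ J k g =
      |μ b (b * g) - μ b' (b' * g)| * χ k g := by
  have h := sum_abs_ib (B := B) (m := fun b => μ b (b * g)) (b := b) (b' := b')
    (fun hb => hμ.off b hb _) (fun hb => hμ.off b' hb _)
    (hμ.nonneg _ _) (hμ.le_one _ _) (hμ.nonneg _ _) (hμ.le_one _ _)
  beta_reduce at h
  rw [← h, Finset.sum_mul]
  exact Finset.sum_congr rfl fun J _ => by rw [phi]; ring

theorem phi_right (hχ : CutOff U χ) (hμ : Amen U χ S ε B μ) (J : Finset Γ) (t : Γ) :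
    Usm U (fun k g => phi χ B μ J k (g * t) - phi χ B μ J k g) := by
  intro δ hδ
  obtain ⟨n, hn⟩ : ∃ n : ℝ, n = (B.card : ℝ) := ⟨_, rfl⟩
  have hn0 : 0 ≤ n := by rw [hn]; positivity
  have h1 := hχ.right t (δ / (2 * n + 1)) (by positivity)
  have h2 : ∀ᶠ k in U, ∀ b ∈ B, ∀ g, |χ k (b * g) - χ k g| ≤ δ / (2 * n + 1) := by
    rw [Filter.eventually_all_finset]
    intro b _
    exact hχ.left b _ (by positivity)
  have h3 : ∀ᶠ k in U, ∀ b ∈ B, ∀ g, χ k g ≠ 0 → |μ b (g * t) - μ b g| ≤ δ / (2 * n + 1) := by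
    rw [Filter.eventually_all_finset]
    intro b _
    exact hμ.right b t _ (by positivity)
  filter_upwards [h1, h2, h3] with k hk1 hk2 hk3 g
  obtain ⟨d, hd⟩ : ∃ d, d = δ / (2 * n + 1) := ⟨_, rfl⟩
  have hd0 : 0 < d := by rw [hd]; positivity
  have hdd : d + n * (d + d) = δ := by
    rw [hd]; field_simp; ring
  rw [← hd] at hk1 hk2 hk3
  have hb : ∀ b ∈ B, χ k g * |μ b (b * (g * t)) - μ b (b * g)| ≤ d + d := by
    intro b hbB
    have e1 := hk2 b hbB g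
    have e2 : χ k (b * g) * |μ b (b * (g * t)) - μ b (b * g)| ≤ d := by
      by_cases h0 : χ k (b * g) = 0
      · rw [h0, zero_mul]; exact hd0.le
      · have e3 := hk3 b hbB (b * g) h0
        rw [mul_assoc] at e3
        calc χ k (b * g) * |μ b (b * (g * t)) - μ b (b * g)|
            ≤ 1 * |μ b (b * (g * t)) - μ b (b * g)| :=
              mul_le_mul_of_nonneg_right (hχ.le_one _ _) (abs_nonneg _)
          _ ≤ d := by rw [one_mul]; exact e3
    have e4 : (χ k g - χ k (b * g)) * |μ b (b * (g * t)) - μ b (b * g)| ≤ d := by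
      calc (χ k g - χ k (b * g)) * |μ b (b * (g * t)) - μ b (b * g)|
          ≤ |χ k g - χ k (b * g)| * |μ b (b * (g * t)) - μ b (b * g)| :=
            mul_le_mul_of_nonneg_right (le_abs_self _) (abs_nonneg _)
        _ ≤ |χ k g - χ k (b * g)| * 1 :=
            mul_le_mul_of_nonneg_left (hμ.abs_sub_le _ _ _ _) (abs_nonneg _)
        _ ≤ d := by rw [mul_one, abs_sub_comm]; exact e1
    linarith
  have hl := lf_lip (B := B) J (m := fun b => μ b (b * (g * t))) (m' := fun b => μ b (b * g))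
    (fun b => hμ.nonneg _ _) (fun b => hμ.le_one _ _) (fun b => hμ.nonneg _ _)
    (fun b => hμ.le_one _ _)
  have hsum : χ k g * ∑ b ∈ B, |μ b (b * (g * t)) - μ b (b * g)| ≤ n * (d + d) := by
    rw [Finset.mul_sum]
    refine (Finset.sum_le_sum hb).trans ?_
    rw [Finset.sum_const, nsmul_eq_mul, hn]
  have e5 : phi χ B μ J k (g * t) - phi χ B μ J k g =
      lf B J (fun b => μ b (b * (g * t))) * (χ k (g * t) - χ k g) +
      χ k g * (lf B J (fun b => μ b (b * (g * t))) - lf B J (fun b => μ b (b * g))) := by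
    rw [phi, phi]; ring
  rw [e5]
  refine (abs_add_le _ _).trans ?_
  rw [abs_mul, abs_mul, abs_of_nonneg (hχ.nonneg k g), abs_of_nonneg (lf_nonneg _ _)]
  have e6 : lf B J (fun b => μ b (b * (g * t))) * |χ k (g * t) - χ k g| ≤ d := by
    calc _ ≤ 1 * |χ k (g * t) - χ k g| :=
          mul_le_mul_of_nonneg_right (lf_le_one _ _) (abs_nonneg _)
      _ ≤ d := by rw [one_mul]; exact hk1 g
  have e7 := mul_le_mul_of_nonneg_left hl (hχ.nonneg k g)
  calc _ ≤ d + n * (d + d) := add_le_add e6 (e7.trans hsum)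
    _ = δ := hdd

/-- the one step lemma -/
theorem step (hV : Frame V) (hχ : CutOff U χ) (hμ : Amen U χ S ε B μ) (hε : 0 ≤ ε)
    (K : Subgroup Λ) (hz : ∀ k, ∀ v ∈ K, z k * v = v * z k) :
    ∃ T : Set Λ → (Ell2 Γ →L[ℂ] Ell2 Γ), (∀ A, 0 ≤ T A) ∧
      (∀ A A', Disjoint A A' → T (A ∪ A') = T A + T A') ∧
      (∀ ξ, (⟪ξ, T Set.univ ξ⟫_ℂ).re ≤ ‖ξ‖ ^ 2) ∧
      (∀ ξ, (1 - ε) * th U V z χ ξ ≤ (⟪ξ, T Set.univ ξ⟫_ℂ).re) ∧
      (∀ v ∈ K, ∀ A, T {w | w * v ∈ A} * Wr V v = Wr V v * T A) ∧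
      (∀ s ∈ S, ∀ A ξ, |(⟪lam s ξ, T A (lam s ξ)⟫_ℂ).re - (⟪ξ, T A ξ⟫_ℂ).re| ≤ ε * ‖ξ‖ ^ 2) := by
  have hsq : ∀ J, ∃ c : Ell2 Γ →L[ℂ] Ell2 Γ, star c * c = PiL U V z (phi χ B μ J) ∧
      ∀ y : Ell2 Γ →L[ℂ] Ell2 Γ, y * PiL U V z (phi χ B μ J) = PiL U V z (phi χ B μ J) * y →
        y * c = c * y := fun J =>
    H108.exists_sqrt (pl_nonneg hV (phi_abs hχ J) (phi_nonneg hχ J))
  choose c hc1 hc2 using hsq
  have hp : ∀ ξ b J, (⟪lam b⁻¹ ξ, (star (c J) * c J) (lam b⁻¹ ξ)⟫_ℂ).re =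
      th U V z (fun k g => phi χ B μ J k (b⁻¹ * g)) ξ := by
    intro ξ b J
    rw [hc1, ← th_lam hV (phi_abs hχ J)]
    rfl
  have hK' : ∀ v ∈ K, v⁻¹ ∈ K := fun v hv => K.inv_mem hv
  have hcomm : ∀ v ∈ K, ∀ J, Wr V v * c J = c J * Wr V v := by
    intro v hv J
    refine hc2 J _ ?_
    exact (pl_comm hV (phi_abs hχ J) v (fun k => hz k v hv)
      (fun t => small_of_usm hV (phi_right hχ hμ J t))).symm
  have huniv : ∀ ξ, (⟪ξ, TT hV.reg.basis B c Set.univ ξ⟫_ℂ).re =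
      th U V z (fun k g => ∑ b ∈ B, 1 * (μ b g * χ k (b⁻¹ * g))) ξ := by
    intro ξ
    rw [th_sum hV B (fun _ => 1) (G := fun b k g => μ b g * χ k (b⁻¹ * g)) (E := fun _ => 1)
      (fun b k g => ?_), TT_re]
    · refine Finset.sum_congr rfl fun b _ => ?_
      rw [one_mul]
      simp only [qq_univ, hp]
      rw [← th_sum hV B.powerset (fun J => ib b J)
        (G := fun J k g => phi χ B μ J k (b⁻¹ * g)) (E := fun _ => 1)
        (fun J k g => phi_abs hχ J k _)]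
      congr 1
      funext k g
      rw [sum_ib_phi hμ, mul_inv_cancel_left]
    · rw [abs_mul, abs_of_nonneg (hμ.nonneg _ _), abs_of_nonneg (hχ.nonneg _ _)]
      exact mul_le_one₀ (hμ.le_one _ _) (hχ.nonneg _ _) (hχ.le_one _ _)
  have hbd : ∀ k g, |∑ b ∈ B, 1 * (μ b g * χ k (b⁻¹ * g))| ≤ 1 := by
    intro k g
    have h0 : 0 ≤ ∑ b ∈ B, 1 * (μ b g * χ k (b⁻¹ * g)) :=
      Finset.sum_nonneg fun b _ => by
        rw [one_mul]; exact mul_nonneg (hμ.nonneg _ _) (hχ.nonneg _ _)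
    rw [abs_of_nonneg h0]
    refine (Finset.sum_le_sum fun b _ => ?_).trans (hμ.sum_le g)
    rw [one_mul]
    exact mul_le_of_le_one_right (hμ.nonneg _ _) (hχ.le_one _ _)
  refine ⟨TT hV.reg.basis B c, fun A => TT_nonneg _ _ _, fun A A' h => TT_union _ _ _ h, ?_, ?_,
    ?_, ?_⟩
  · intro ξ
    rw [huniv]
    refine (th_le hV hbd (c := 1) (fun δ hδ => Eventually.of_forall fun k g => ?_) ξ).trans
      (by rw [one_mul])
    exact (le_abs_self _).trans ((hbd k g).trans (by linarith))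
  · intro ξ
    rw [huniv]
    have h1 : (1 - ε) * th U V z χ ξ = th U V z (fun k g => ∑ j ∈ ({0} : Finset ℕ),
        (1 - ε) * χ k g) ξ := by
      rw [th_sum hV {0} (fun _ => 1 - ε) (G := fun _ k g => χ k g) (E := fun _ => 1)
        (fun _ k g => hχ.abs_le k g)]
      simp
    rw [h1]
    refine th_mono hV (C := |1 - ε|) (fun k g => ?_) hbd (fun δ hδ => ?_) ξ
    · rw [Finset.sum_singleton, abs_mul]
      exact mul_le_of_le_one_right (abs_nonneg _) (hχ.abs_le k g)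
    · have h2 : ∀ᶠ k in U, ∀ b ∈ B, ∀ g, |χ k (b⁻¹ * g) - χ k g| ≤ δ := by
        rw [Filter.eventually_all_finset]
        intro b _
        exact hχ.left b⁻¹ _ hδ
      filter_upwards [h2] with k hk g
      rw [Finset.sum_singleton]
      have h3 : ∑ b ∈ B, μ b g * (χ k g - δ) ≤ ∑ b ∈ B, 1 * (μ b g * χ k (b⁻¹ * g)) := by
        refine Finset.sum_le_sum fun b hb => ?_
        rw [one_mul]
        refine mul_le_mul_of_nonneg_left ?_ (hμ.nonneg _ _)
        have := (abs_le.mp (hk b hb g)).1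
        linarith
      rw [← Finset.sum_mul] at h3
      have h4 := hμ.sum_ge g
      have h5 := hμ.sum_le g
      have h6 := hχ.nonneg k g
      nlinarith
  · intro v hv A
    have hstar : ∀ u, star (Wr V u) = Wr V u⁻¹ := fun u => (regRep_W hV).adj u
    refine TT_cov hV.reg.basis B c (W := Wr V v) (W' := Wr V v⁻¹) (σ := fun w => w * v⁻¹)
      (fun w => ?_) (fun w => ?_) (hstar v) (fun g => cmm_lam_W hV v g)
      (fun J _ => hcomm v hv J) (fun J _ => hcomm _ (hK' v hv) J) (fun g => cmm_lam_W hV v⁻¹ g)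
    · rw [hV.reg.basis_apply, hV.reg.basis_apply, ← VW_apply hV, Wr_xi hV, ← mul_ap, ← map_mul]
    · simp
  · intro s hs A ξ
    obtain ⟨DD, hDD⟩ : ∃ DD, DD = B ∪ B.image (fun b => s⁻¹ * b) := ⟨_, rfl⟩
    have e1 : (⟪ξ, TT hV.reg.basis B c A ξ⟫_ℂ).re =
        ∑ b ∈ DD, ∑ J ∈ B.powerset, ib b J * qq hV.reg.basis c A ξ b J := by
      rw [TT_re]
      refine Finset.sum_subset (by rw [hDD]; exact Finset.subset_union_left) fun b _ hb => ?_
      exact Finset.sum_eq_zero fun J hJ => by rw [ib_zero hJ hb, zero_mul]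
    have e2 : (⟪lam s ξ, TT hV.reg.basis B c A (lam s ξ)⟫_ℂ).re =
        ∑ b ∈ DD, ∑ J ∈ B.powerset, ib (s * b) J * qq hV.reg.basis c A ξ b J := by
      rw [TT_re]
      have e3 : ∑ b ∈ B.image (fun b => s⁻¹ * b), ∑ J ∈ B.powerset,
          ib (s * b) J * qq hV.reg.basis c A ξ b J =
          ∑ b ∈ B, ∑ J ∈ B.powerset, ib b J * qq hV.reg.basis c A (lam s ξ) b J := by
        rw [Finset.sum_image (fun x _ y _ h => mul_left_cancel h)]
        refine Finset.sum_congr rfl fun b _ => Finset.sum_congr rfl fun J _ => ?_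
        have := qq_lam hV.reg.basis c (A := A) ξ s⁻¹ b J
        rw [inv_inv] at this
        rw [this, mul_inv_cancel_left]
      rw [← e3]
      refine Finset.sum_subset (by rw [hDD]; exact Finset.subset_union_right) fun b _ hb => ?_
      refine Finset.sum_eq_zero fun J hJ => ?_
      rw [ib_zero hJ (fun h => hb (Finset.mem_image.mpr ⟨s * b, h, inv_mul_cancel_left s b⟩)),
        zero_mul]
    have e4 : |(⟪lam s ξ, TT hV.reg.basis B c A (lam s ξ)⟫_ℂ).re -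
        (⟪ξ, TT hV.reg.basis B c A ξ⟫_ℂ).re| ≤
        ∑ b ∈ DD, ∑ J ∈ B.powerset, |ib (s * b) J - ib b J| *
          th U V z (fun k g => phi χ B μ J k (b⁻¹ * g)) ξ := by
      rw [e1, e2, ← Finset.sum_sub_distrib]
      refine (Finset.abs_sum_le_sum_abs _ _).trans (Finset.sum_le_sum fun b _ => ?_)
      rw [← Finset.sum_sub_distrib]
      refine (Finset.abs_sum_le_sum_abs _ _).trans (Finset.sum_le_sum fun J _ => ?_)
      rw [← sub_mul, abs_mul, abs_of_nonneg (qq_nonneg _ _ _ _ _)]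
      refine mul_le_mul_of_nonneg_left ?_ (abs_nonneg _)
      rw [← hp]
      exact qq_le _ _ _ _ _
    have e5 : ∑ b ∈ DD, ∑ J ∈ B.powerset, |ib (s * b) J - ib b J| *
          th U V z (fun k g => phi χ B μ J k (b⁻¹ * g)) ξ =
        th U V z (fun k g => ∑ b ∈ DD, 1 * (|μ (s * b) (s * g) - μ b g| * χ k (b⁻¹ * g))) ξ := by
      rw [th_sum hV DD (fun _ => 1)
        (G := fun b k g => |μ (s * b) (s * g) - μ b g| * χ k (b⁻¹ * g)) (E := fun _ => 1)
        (fun b k g => ?_)]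
      · refine Finset.sum_congr rfl fun b _ => ?_
        rw [one_mul, ← th_sum hV B.powerset (fun J => |ib (s * b) J - ib b J|)
          (G := fun J k g => phi χ B μ J k (b⁻¹ * g)) (E := fun _ => 1)
          (fun J k g => phi_abs hχ J k _)]
        congr 1
        funext k g
        rw [sum_abs_ib_phi hμ, mul_inv_cancel_left, mul_assoc, mul_inv_cancel_left]
      · rw [abs_mul, abs_abs, abs_of_nonneg (hχ.nonneg _ _)]
        exact mul_le_one₀ (hμ.abs_sub_le _ _ _ _) (hχ.nonneg _ _) (hχ.le_one _ _)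
    rw [e5] at e4
    refine e4.trans ?_
    obtain ⟨n, hn⟩ : ∃ n : ℝ, n = (DD.card : ℝ) := ⟨_, rfl⟩
    have hn0 : 0 ≤ n := by rw [hn]; positivity
    refine th_le hV (C := n) (fun k g => ?_) (fun δ hδ => ?_) ξ
    · refine (Finset.abs_sum_le_sum_abs _ _).trans ?_
      rw [hn, ← nsmul_one DD.card, ← Finset.sum_const]
      refine Finset.sum_le_sum fun b _ => ?_
      rw [one_mul, abs_mul, abs_abs, abs_of_nonneg (hχ.nonneg _ _)]
      exact mul_le_one₀ (hμ.abs_sub_le _ _ _ _) (hχ.nonneg _ _) (hχ.le_one _ _)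
    · have h2 : ∀ᶠ k in U, ∀ b ∈ DD, ∀ g, |χ k (b⁻¹ * g) - χ k g| ≤ δ / (n + 1) := by
        rw [Filter.eventually_all_finset]
        intro b _
        exact hχ.left b⁻¹ _ (by positivity)
      filter_upwards [h2, hμ.left s hs] with k hk hk2 g
      have h3 : ∑ b ∈ DD, 1 * (|μ (s * b) (s * g) - μ b g| * χ k (b⁻¹ * g)) ≤
          ∑ b ∈ DD, (|μ (s * b) (s * g) - μ b g| * χ k g + δ / (n + 1)) := by
        refine Finset.sum_le_sum fun b hb => ?_
        rw [one_mul]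
        have h4 := (abs_le.mp (hk b hb g)).2
        have h5 := hμ.abs_sub_le (s * b) (s * g) b g
        have h6 := abs_nonneg (μ (s * b) (s * g) - μ b g)
        have h7 : 0 < δ / (n + 1) := by positivity
        nlinarith
      refine h3.trans ?_
      rw [Finset.sum_add_distrib, ← Finset.sum_mul, Finset.sum_const, nsmul_eq_mul, ← hn]
      have h8 : n * (δ / (n + 1)) ≤ δ := by
        rw [mul_div_assoc', div_le_iff₀ (by positivity)]
        nlinarith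
      have h9 : (∑ b ∈ DD, |μ (s * b) (s * g) - μ b g|) * χ k g ≤ ε := by
        by_cases h0 : χ k g = 0
        · rw [h0, mul_zero]; exact hε
        · have h10 := hk2 g h0
          rw [← hDD] at h10
          have h11 : 0 ≤ ∑ b ∈ DD, |μ (s * b) (s * g) - μ b g| :=
            Finset.sum_nonneg fun b _ => abs_nonneg _
          exact (mul_le_of_le_one_right h11 (hχ.le_one _ _)).trans h10
      linarith

end step

end Vale.Agent.P092.H538
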